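import Vale.Agent.P307.R2.H541.Sys
import Vale.Agent.P307.R2.H806.RealX

/-!
Tameness of types over a set, level by level: transfer along partial maps and reflection; coheir
independence for the pieces of a fixed size.
-/

set_option linter.unusedSectionVars false

universe u

open Cardinal Set

namespace Vale.Agent.P307.R2.H541

namespace PG

variable {C : Type u} (M : PG C)

/-- The type of `E` over the pieces of size `ρ` of `Y` is determined by the pieces of size `H`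
(for one conjugate). -/
def TmE (H ρ : Cardinal.{u}) (Y E : Set C) (g : Equiv.Perm C) : Prop :=
  (∀ A ⊆ Y, #A ≤ H → ∃ h ∈ M.G, (∀ a ∈ A, h a = a) ∧ ∀ e ∈ E, h e = g e) →
    ∀ A ⊆ Y, #A ≤ ρ → ∃ h ∈ M.G, (∀ a ∈ A, h a = a) ∧ ∀ e ∈ E, h e = g e

/-- Tameness of the types over `Y` at the levels `σ, H, ρ`. -/
def TmL (σ H ρ : Cardinal.{u}) (Y : Set C) : Prop :=
  ∀ E : Set C, #E ≤ σ → ∀ g ∈ M.G, M.TmE H ρ Y E g

/-- `f` preserves the types of the pieces of size `B` of `X`. -/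
def LEL (B : Cardinal.{u}) (f : C → C) (X : Set C) : Prop :=
  ∀ A ⊆ X, #A ≤ B → ∃ g ∈ M.G, ∀ a ∈ A, g a = f a

/-- Coheir independence for pieces of size `τ`. -/
def IndL (τ : Cardinal.{u}) (P A B : Set C) : Prop := ∀ A' ⊆ P ∪ A, #A' ≤ τ →
  ∀ B' ⊆ B, #B' ≤ τ → ∃ g ∈ M.G, (∀ a ∈ A', g a = a) ∧ ∀ b ∈ B', g b ∈ P

/-- Independence of sets of size `σ` over the sets in `S` is decided by the pieces of a fixed
size. -/
def Up : Prop := ∀ σ < M.χ, ∃ τ < M.χ, ∀ P ∈ M.S, ∀ a b : Set C, #a ≤ σ → #b ≤ σ →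
  M.IndL τ P a b → M.Ind P a b

variable {M} {P A B X Y : Set C} {σ H ρ τ : Cardinal.{u}}

theorem tm_of_tmL (h : ∀ σ < M.χ, ∃ H < M.χ, ∀ ρ < M.χ, M.TmL σ H ρ Y) : M.Tm Y := by
  intro σ hσ
  obtain ⟨H, hH, h1⟩ := h σ hσ
  refine ⟨H, hH, fun E hE g hg hloc A hA hAc => ?_⟩
  exact h1 #A hAc E hE g hg hloc A hA le_rfl

theorem TmL.tmE (h : M.TmL σ H ρ Y) {E : Set C} (hE : #E ≤ σ) {g : Equiv.Perm C} (hg : g ∈ M.G) :
    M.TmE H ρ Y E g := h E hE g hg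

/-- Reflection: it is enough to have tameness over a larger set, all of whose pieces reflect over
the parameters. -/
theorem TmE.of_refl {Y' E : Set C} {g : Equiv.Perm C} (hY : Y ⊆ Y')
    (h : M.TmE H ρ Y' E g) (hr : ∀ A ⊆ Y', #A ≤ H → ∃ k ∈ M.G, (∀ e ∈ E, k e = e) ∧
      (∀ e ∈ E, k (g e) = g e) ∧ ∀ a ∈ A, k a ∈ Y) : M.TmE H ρ Y E g := by
  intro hloc A hA hAρ
  refine h (fun A' hA' hA'H => ?_) A (hA.trans hY) hAρ
  obtain ⟨k, hk, h1, h2, h3⟩ := hr A' hA' hA'H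
  obtain ⟨l, hl, h4, h5⟩ := hloc (k '' A') (by
    rintro _ ⟨a, ha, rfl⟩
    exact h3 a ha) (mk_image_le.trans hA'H)
  refine ⟨k⁻¹ * l * k, M.G.mul_mem (M.G.mul_mem (M.G.inv_mem hk) hl) hk, fun a ha => ?_,
    fun e he => ?_⟩
  · change k⁻¹ (l (k a)) = a
    rw [h4 _ (mem_image_of_mem k ha), inv_ap]
  · change k⁻¹ (l (k e)) = g e
    rw [h1 e he, h5 e he]
    exact fix_inv (h2 e he)

/-- Transfer along a map which preserves the types of the pieces of a fixed size. -/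
theorem Real.tmL_of_map (hR : M.Real) (hσ : σ < M.χ) (hH : H < M.χ) (hρ : ρ < M.χ) :
    ∃ B < M.χ, ∀ (Y : Set C) (f : C → C), #Y ≤ M.χ → M.LEL B f Y → M.TmL σ H ρ (f '' Y) →
      M.TmL σ H ρ Y := by
  obtain ⟨ν₁, h1, B, h2, h3, h4, h5⟩ := hR (max (σ + σ) (max H ρ))
    (max_lt (add_lt_of_lt M.hχ hσ hσ) (max_lt hH hρ))
  refine ⟨B, h2, fun Y f hY hf hT E hE g hg hloc A hA hAρ => ?_⟩
  obtain ⟨e, he⟩ := h5 Y (E ∪ g '' E) f hY (by
    refine (mk_union_le _ _).trans ?_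
    exact (add_le_add hE (mk_image_le.trans hE)).trans (le_max_left _ _)) (by
    intro A' hA' hA'B
    obtain ⟨k, hk, hkf⟩ := hf A' hA' hA'B
    exact ⟨k, fun A'' hA'' _ => ⟨k, hk, fun a ha => hkf a (hA'' ha), fun _ _ => rfl⟩⟩)
  obtain ⟨k₀, hk₀, -, hk₀e⟩ := he ∅ (empty_subset _) (by simp)
  have hloc' : ∀ A' ⊆ f '' Y, #A' ≤ H → ∃ l ∈ M.G, (∀ a ∈ A', l a = a) ∧
      ∀ x ∈ k₀ '' E, l x = (k₀ * g * k₀⁻¹) x := by
    intro A' hA' hA'H
    choose p hp1 hp2 using fun a : A' => hA' a.2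
    obtain ⟨k, hk, hkf, hke⟩ := he (range p) (by
      rintro _ ⟨a, rfl⟩
      exact hp1 a) ((mk_range_le.trans hA'H).trans ((le_max_left _ _).trans (le_max_right _ _)))
    obtain ⟨l, hl, hl1, hl2⟩ := hloc (range p) (by
      rintro _ ⟨a, rfl⟩
      exact hp1 a) (mk_range_le.trans hA'H)
    refine ⟨k * l * k⁻¹, M.G.mul_mem (M.G.mul_mem hk hl) (M.G.inv_mem hk), fun a ha => ?_, ?_⟩
    · have h6 : k (p ⟨a, ha⟩) = a := by rw [hkf _ ⟨_, rfl⟩, hp2]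
      have h7 : k⁻¹ a = p ⟨a, ha⟩ := by
        rw [Equiv.Perm.inv_eq_iff_eq]
        exact h6.symm
      change k (l (k⁻¹ a)) = a
      rw [h7, hl1 _ ⟨_, rfl⟩, h6]
    · rintro _ ⟨x, hx, rfl⟩
      change k (l (k⁻¹ (k₀ x))) = k₀ (g (k₀⁻¹ (k₀ x)))
      have h6 : k₀ x = k x := by rw [hk₀e x (Or.inl hx), hke x (Or.inl hx)]
      have h7 : k₀ (g x) = k (g x) := by
        rw [hk₀e _ (Or.inr (mem_image_of_mem g hx)), hke _ (Or.inr (mem_image_of_mem g hx))]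
      rw [inv_ap, h7, h6, inv_ap, hl2 x hx]
  obtain ⟨l, hl, hl1, hl2⟩ := hT (k₀ '' E) (mk_image_le.trans hE) (k₀ * g * k₀⁻¹)
    (M.G.mul_mem (M.G.mul_mem hk₀ hg) (M.G.inv_mem hk₀)) hloc' (f '' A) (image_mono hA)
    (mk_image_le.trans hAρ)
  obtain ⟨k, hk, hkf, hke⟩ := he A hA (hAρ.trans ((le_max_right _ _).trans (le_max_right _ _)))
  refine ⟨k⁻¹ * l * k, M.G.mul_mem (M.G.mul_mem (M.G.inv_mem hk) hl) hk, fun a ha => ?_,
    fun x hx => ?_⟩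
  · change k⁻¹ (l (k a)) = a
    rw [hkf a ha, hl1 _ (mem_image_of_mem f ha), ← hkf a ha, inv_ap]
  · change k⁻¹ (l (k x)) = g x
    have h6 : k₀ x = k x := by rw [hk₀e x (Or.inl hx), hke x (Or.inl hx)]
    have h7 : k₀ (g x) = k (g x) := by
      rw [hk₀e _ (Or.inr (mem_image_of_mem g hx)), hke _ (Or.inr (mem_image_of_mem g hx))]
    rw [← h6, hl2 _ (mem_image_of_mem k₀ hx)]
    change k⁻¹ (k₀ (g (k₀⁻¹ (k₀ x)))) = g x
    rw [inv_ap, h7, inv_ap]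

/-! ### Independence for pieces of a fixed size -/

theorem Ind.indL (h : M.Ind P A B) (hτ : τ < M.χ) : M.IndL τ P A B :=
  fun A' hA' hA'c B' hB' hB'c => h A' hA' (hA'c.trans_lt hτ) B' hB' (hB'c.trans_lt hτ)

namespace IndL

theorem mono {A' B' : Set C} (h : M.IndL τ P A B) (hA : A' ⊆ A) (hB : B' ⊆ B) :
    M.IndL τ P A' B' :=
  fun D hD hDc E hE hEc => h D (hD.trans (union_subset_union_right P hA)) hDc E (hE.trans hB) hEc

theorem level {τ' : Cardinal.{u}} (h : M.IndL τ P A B) (hτ : τ' ≤ τ) : M.IndL τ' P A B :=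
  fun D hD hDc E hE hEc => h D hD (hDc.trans hτ) E hE (hEc.trans hτ)

/-- Transitivity: `B` is reflected into `Q`, and `Q` into `P`. -/
theorem trans {Q A' : Set C} (h : M.IndL τ Q A' B) (h' : M.IndL τ P A Q) (hPA : P ∪ A ⊆ Q ∪ A') :
    M.IndL τ P A B := by
  intro D hD hDc E hE hEc
  obtain ⟨g, hg, h1, h2⟩ := h D (hD.trans hPA) hDc E hE hEc
  obtain ⟨k, hk, h3, h4⟩ := h' D hD hDc (g '' E) (by
    rintro _ ⟨e, he, rfl⟩
    exact h2 e he) (mk_image_le.trans hEc)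
  refine ⟨k * g, M.G.mul_mem hk hg, fun a ha => ?_, fun b hb => h4 _ (mem_image_of_mem g hb)⟩
  rw [Equiv.Perm.mul_apply, h1 a ha, h3 a ha]

theorem smul (h : M.IndL τ P A B) {g : Equiv.Perm C} (hg : g ∈ M.G) :
    M.IndL τ (g '' P) (g '' A) (g '' B) := by
  intro D hD hDc E hE hEc
  obtain ⟨k, hk, h1, h2⟩ := h ((g⁻¹ : Equiv.Perm C) '' D) (by
    rintro _ ⟨d, hd, rfl⟩
    rcases hD hd with ⟨a, ha, rfl⟩ | ⟨a, ha, rfl⟩
    · rw [inv_ap]
      exact Or.inl ha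
    · rw [inv_ap]
      exact Or.inr ha) (mk_image_le.trans hDc) ((g⁻¹ : Equiv.Perm C) '' E) (by
    rintro _ ⟨d, hd, rfl⟩
    obtain ⟨a, ha, rfl⟩ := hE hd
    rw [inv_ap]
    exact ha) (mk_image_le.trans hEc)
  refine ⟨g * k * g⁻¹, M.G.mul_mem (M.G.mul_mem hg hk) (M.G.inv_mem hg), fun a ha => ?_,
    fun b hb => ⟨k (g⁻¹ b), h2 _ (mem_image_of_mem _ hb), rfl⟩⟩
  change g (k (g⁻¹ a)) = a
  rw [h1 _ (mem_image_of_mem _ ha), ap_inv]

/-- From small subsets to the whole. -/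
theorem of_small (h : ∀ a ⊆ P ∪ A, #a ≤ τ → ∀ b ⊆ B, #b ≤ τ → M.IndL τ P a b) :
    M.IndL τ P A B := fun D hD hDc E hE hEc =>
  h D hD hDc E hE hEc D subset_union_right hDc E Subset.rfl hEc

end IndL

/-- Symmetry, with a loss of levels. -/
theorem Up.exists_sym (hU : M.Up) (hM : M.Calc) {σ : Cardinal.{u}} (hσ : σ < M.χ) :
    ∃ τ < M.χ, ∀ P ∈ M.S, ∀ A B : Set C, M.IndL τ P A B → M.IndL σ P B A := by
  obtain ⟨τ, hτ, h⟩ := hU σ hσ
  refine ⟨max σ τ, max_lt hσ hτ, fun P hP A B hI D hD hDc E hE hEc => ?_⟩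
  have h1 : M.Ind P E (D ∩ B) := by
    refine h P hP E (D ∩ B) hEc ((mk_le_mk_of_subset inter_subset_left).trans hDc) ?_
    intro D' hD' hD'c E' hE' hE'c
    exact hI D' (hD'.trans (union_subset_union_right P hE)) (hD'c.trans (le_max_right _ _)) E'
      (hE'.trans inter_subset_right) (hE'c.trans (le_max_right _ _))
  exact hM.sym hP h1 D (fun d hd => (hD hd).elim Or.inl fun h => Or.inr ⟨hd, h⟩)
    (hDc.trans_lt hσ) E Subset.rfl (hEc.trans_lt hσ)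

end PG

end Vale.Agent.P307.R2.H541
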