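import Vale.Agent.P307.R2.H732.Up
import Vale.Agent.P307.R2.H806.Std

/-!
Tameness of the types over unions of standard submodels.
-/

set_option linter.unusedSectionVars false

universe u

open FirstOrder Cardinal Set

namespace Vale.Agent.P307.R2.H541

open Vale.Agent.P307 Vale.Agent.P307.H304 Vale.Agent.P307.R2.H287 Vale.Agent.P307.R2.H1
  Vale.Agent.P307.R2.H971 Vale.Agent.P307.R2.H804 Vale.Agent.P307.R2.H514
  Vale.Agent.P307.R2.H806 Language.Structure Language.Substructure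

variable {L : Language.{u, u}} {K : AEC L} {ℓ θ : Cardinal.{u}}
  {κf α : Cardinal.{u} → Cardinal.{u}} {C : Type u} [L.Structure C]

theorem tH_lt (h₀ : BasePt K ℓ κf α θ) (hst : Stab K ℓ α (H287.thr κf)) {σ : Cardinal.{u}}
    (hσ : σ < θ) : tH (max ℓ σ) < θ := by
  have h1 : max ℓ σ < θ := max_lt h₀.pt.lt hσ
  have h2 : ℓ ≤ tH (max ℓ σ) := (le_max_left _ _).trans (lt_tH' _).le
  exact (hst _ h2).1.trans_lt (h₀.tb _ h1)

section

variable (h₀ : BasePt K ℓ κf α θ) (hK : K.IsLS ℓ)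
  (hunb : ∀ ν, ν < κf ν ∧ K.CategoricalIn (κf ν)) (hst : Stab K ℓ α (H287.thr κf))
  (hCm : K.mem C) (hs : Sat K θ C) (hCc : #C = Order.succ θ)

include h₀ hK hunb hst hCm hs hCc

/-- Tameness over unions of standard submodels. -/
theorem tmL_std {t : Tpl K ℓ} {I : Type u} [LinearOrder I] (E : EM t I) (hI : θ ≤ #I)
    (e : E.N ≃[L] C) {σ : Cardinal.{u}} (hσ : σ < θ) {F : Type u} (W : F → Set I) (s₀ : Set I)
    (hs₀ : #s₀ ≤ max ℓ σ)
    (hmix : ∀ f, ∀ w ∈ W f, w ∉ s₀ → ∀ f', ∀ w' ∈ W f', w' ∉ s₀ →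
      (∀ a ∈ s₀, a < w ↔ a < w') → w' ∈ W f) {ρ : Cardinal.{u}} (hρ : ρ < θ) :
    (pg h₀ hK hunb hst hCm hs hCc).TmL σ (tH (max ℓ σ)) ρ
      {c | ∃ f, c ∈ e '' (hullL E (W f) : Set E.N)} := by
  intro Q hQ g hg hloc A hA hAρ
  have hθ := aleph0_le_pt h₀ hK
  let s : Cardinal.{u} := max ℓ σ
  have hs : ℓ ≤ s := le_max_left _ _
  have hH : tH s < θ := tH_lt h₀ hst hσ
  have hsH : s ≤ tH s := (lt_tH' s).le
  have hHα : tH s ≤ α (tH s) := (hst _ (hs.trans hsH)).1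
  let ν : Cardinal.{u} := max s ρ
  have hν : ν < θ := max_lt (max_lt h₀.pt.lt hσ) hρ
  have hℓν : ℓ ≤ ν := hs.trans (le_max_left _ _)
  have hν0 : ℵ₀ ≤ ν := hK.1.trans hℓν
  have hνα : ν ≤ α ν := (hst ν hℓν).1
  have hQs : #Q ≤ s := hQ.trans (le_max_right _ _)
  have hQν : #Q ≤ ν := hQs.trans (le_max_left _ _)
  have hAν : #A ≤ ν := hAρ.trans (le_max_right _ _)
  have h0 : ℵ₀ ≤ α (tH s) := (hK.1.trans (hs.trans hsH)).trans hHα
  obtain ⟨eg, heg⟩ := hg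
  -- the tameness theorem
  have h1 := tame_family hK hunb hst t hs h₀.al h₀.pt.thr h₀.pt.cof hH E hI W s₀ hs₀ hmix
    (X := Q) hQs (fun x => e.symm x) (fun x => e.symm (g x)) (by
    intro ι a hι ha
    have h2 : #(range fun i => e (a i)) ≤ tH s := mk_range_le.trans hι
    obtain ⟨k, ⟨ek, hek⟩, hk1, hk2⟩ := hloc (range fun i => e (a i)) (by
      rintro _ ⟨i, rfl⟩
      obtain ⟨f, hf⟩ := ha i
      exact ⟨f, mem_image_of_mem e hf⟩) h2
    have h3 := H804.EqS.equiv h0 (mk_sum_le' h0 (hι.trans hHα)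
      ((hQs.trans hsH).trans hHα)) ((e.symm.comp ek).comp e)
      (Sum.elim a fun x : Q => e.symm x)
    refine h3.subset ?_
    rintro _ ⟨i | x, rfl⟩
    · refine ⟨Sum.inl i, Prod.ext rfl ?_⟩
      change e.symm (ek (e (a i))) = a i
      rw [hek, hk1 _ ⟨i, rfl⟩, Language.Equiv.symm_apply_apply]
    · refine ⟨Sum.inr x, Prod.ext rfl ?_⟩
      change e.symm (ek (e (e.symm x))) = e.symm (g x)
      rw [Language.Equiv.apply_symm_apply, hek, hk2 _ x.2]) (ν := α ν) (hℓν.trans hνα)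
    (h₀.al ν hν) (hQν.trans hνα) (ι := A) (hAν.trans hνα) (fun a => e.symm a) (by
    intro a
    obtain ⟨f, y, hy, hya⟩ := hA a.2
    refine ⟨f, ?_⟩
    rw [← hya, Language.Equiv.symm_apply_apply]
    exact hy)
  have h4 := hν0.trans hνα
  have h5 := mk_sum_le' h4 (hAν.trans hνα) (hQν.trans hνα)
  have h6 := H804.EqS.equiv h4 h5 e (Sum.elim (fun a : A => e.symm a) fun x : Q => e.symm x)
  have h7 := H804.EqS.equiv h4 h5 e (Sum.elim (fun a : A => e.symm a) fun x : Q => e.symm (g x))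
  have h8 := (h6.symm.trans h1).trans h7
  obtain ⟨k, hk, hk'⟩ := exists_mem_autG h₀ hK hunb hst hCm ‹Sat K θ C› hCc hℓν hν
    (mk_sum_le' hν0 hAν hQν) (Sum.elim (fun a : A => (a : C)) fun x : Q => (x : C))
    (Sum.elim (fun a : A => (a : C)) fun x : Q => g x) (by
    refine h8.subset ?_
    rintro _ ⟨a | x, rfl⟩
    · refine ⟨Sum.inl a, Prod.ext ?_ ?_⟩ <;> exact Language.Equiv.apply_symm_apply e _
    · refine ⟨Sum.inr x, Prod.ext ?_ ?_⟩ <;> exact Language.Equiv.apply_symm_apply e _)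
  exact ⟨k, hk, fun a ha => hk' (Sum.inl ⟨a, ha⟩), fun x hx => hk' (Sum.inr ⟨x, hx⟩)⟩

end

end Vale.Agent.P307.R2.H541
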