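import Vale.Agent.P307.R2.H732.TmL
import Vale.Agent.P307.R2.H83.Scaf
import Vale.Agent.P307.R2.H83.Last

/-!
Tameness over arbitrary independent families of models, from tameness over standard families:
the family is enlarged freely to a family which is isomorphic with a standard one, face by face;
the union of the isomorphisms preserves the types of the pieces of bounded size.
-/

set_option linter.unusedSectionVars false

universe u v w

open Cardinal Set Function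

namespace Vale.Agent.P307.R2.H732

open Vale.Agent.P307.R2.H541 Vale.Agent.P307.R2.H541.PG Vale.Agent.P307.R2.H533
  Vale.Agent.P307.R2.H650 Vale.Agent.P307.R2.H83 Vale.Agent.P307.R2.H578

open scoped Classical

variable {C : Type u} {ι : Type v} {M : PG C} {F : Finset (Finset ι)} {A : Finset ι → Set C}

theorem scaf_le {N : Set C} {m : ℕ} {P : ℕ → Finset ι → Set C} {r : ℕ → Finset ι}
    {Q : ℕ → Set C} (h : Scaf M A F N m P r Q) : ∀ i ≤ m, ∀ v ∈ F, A v ⊆ P i v := by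
  intro i
  induction i with
  | zero =>
    intro _ v hv
    rw [h.zero v hv]
  | succ i ih =>
    intro hi v hv
    exact (ih (by omega) v hv).trans ((h.blk i (by omega)).le hv)

/-- **Tameness over an independent family**, from standard families: for every bound `B₀` there
is a generator of standard families over which types are tame, such that coherent isomorphisms
onto a standard family preserve the types of the pieces of size at most `B₀`. -/
theorem tmL_of_gen (hM : M.Calc) (hls : ∀ X : Set C, #X ≤ M.χ → ∃ N ∈ M.S, X ⊆ N)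
    (hRl : M.Real) (hFr : FreeM M) (hMd : ∀ j, 1 ≤ j → ∀ v ∈ F, j < v.card → Md M ι j)
    (hA : IFam M A F) (hR : IRef M A F) {σ H ρ : Cardinal.{u}} (hσ : σ < M.χ) (hH : H < M.χ)
    (hρ : ρ < M.χ)
    (hgen : ∀ B₀ < M.χ, ∃ (β : Type w) (St : (Finset ι → β) → Finset ι → Set C),
      StdGen M F St ∧ (∀ b, M.TmL σ H ρ (iun (St b) F)) ∧
        ∀ (B : Finset ι → Set C) (b : Finset ι → β) (φ : Finset ι → Equiv.Perm C),
          IFam M B F → IRef M B F → Coh M F B (St b) φ → M.LEL B₀ (umap F B φ) (iun B F)) :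
    M.TmL σ H ρ (iun A F) := by
  obtain ⟨B₀, hB₀, hmap⟩ := hRl.tmL_of_map hσ hH hρ
  obtain ⟨β, St, hSt, hT, hL⟩ := hgen B₀ hB₀
  intro E hE g hg
  have hEc : #E < M.χ := hE.trans_lt hσ
  have hEg : #(E ∪ g '' E : Set C) < M.χ := small_union hEc (small_image g hEc)
  obtain ⟨m, P, r, Q, b, φ, hS, hB, hRB, hK, hc⟩ :=
    exists_scaf hM hls hFr hMd hSt hA hR hEg.le
  have h1 : M.TmL σ H ρ (iun (P m) F) := by
    refine hmap _ (umap F (P m) φ) (card_iun fun v hv => (M.S_card (hB.mem v hv)).le)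
      (hL (P m) b φ hB hRB hc) ?_
    rw [hc.umap_img hB hRB]
    exact hT b
  refine (h1.tmE hE hg).of_refl ?_ fun D hD hDc => ?_
  · rintro x ⟨v, hv, hx⟩
    exact ⟨v, hv, scaf_le hS m le_rfl v hv hx⟩
  · obtain ⟨k, hk, h2, h3⟩ := hK D hD (hDc.trans_lt hH) (E ∪ g '' E) Subset.rfl hEg
    refine ⟨k, hk, fun e he => h2 e (Or.inl he), fun e he =>
      h2 _ (Or.inr (mem_image_of_mem g he)), fun a ha => ?_⟩
    obtain ⟨v, hv, hav⟩ := hD ha
    exact ⟨v, hv, h3 v hv a ha hav⟩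

variable (M) in
/-- A generator of standard families: bounded reflection, and types over the union are tame. -/
structure Gen (H : Cardinal.{u} → Cardinal.{u}) (σ ρ τ : Cardinal.{u})
    (F : Finset (Finset ι)) {β : Type w} (St : (Finset ι → β) → Finset ι → Set C) : Prop where
  mem : ∀ b, ∀ v ∈ F, St b v ∈ M.S
  mono : ∀ b, ∀ v ∈ F, ∀ w ⊆ v, St b w ⊆ St b v
  loc : ∀ b b' : Finset ι → β, ∀ v ∈ F, (∀ w ⊆ v, w.Nonempty → b w = b' w) → St b v = St b' v
  conj : ∀ P ∈ M.S, ∃ b, ∃ g ∈ M.G, g '' P = St b ∅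
  gap : ∀ b, ∀ v ∈ F, v.Nonempty → ∀ D ∈ M.S, ∀ Z ⊆ D, Z ⊆ ibd (St b) v →
    ∃ c, ∃ g ∈ M.G, (∀ z ∈ Z, g z = z) ∧ g '' D ⊆ St (update b v c) v
  refL : ∀ b, IRefL M τ (St b) F
  tm : ∀ b, M.TmL σ (H σ) ρ (iun (St b) F)

variable (M) in
/-- Bounded reflection below the face `v` implies full reflection. -/
def FU (v : Finset ι) : Prop := ∃ τ < M.χ, ∀ A : Finset ι → Set C, IFam M A v.ssubsets →
  IRefL M τ A v.ssubsets → IRef M A v.ssubsets

theorem exists_max_lt {F : Finset (Finset ι)} {χ : Cardinal.{u}} (hχ : 0 < χ)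
    {p : Finset ι → Cardinal.{u} → Prop} (h : ∀ v ∈ F, ∃ τ < χ, p v τ) :
    ∃ τ < χ, ∀ v ∈ F, ∃ τ' ≤ τ, p v τ' := by
  induction F using Finset.induction_on with
  | empty => exact ⟨0, hχ, fun v hv => absurd hv (Finset.notMem_empty v)⟩
  | insert w F hw ih =>
    obtain ⟨τ₁, h1, h2⟩ := ih fun v hv => h v (Finset.mem_insert_of_mem hv)
    obtain ⟨τ₂, h3, h4⟩ := h w (Finset.mem_insert_self w F)
    refine ⟨max τ₁ τ₂, max_lt h1 h3, fun v hv => ?_⟩
    rcases Finset.mem_insert.1 hv with rfl | hv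
    · exact ⟨τ₂, le_max_right _ _, h4⟩
    · obtain ⟨τ', h5, h6⟩ := h2 v hv
      exact ⟨τ', h5.trans (le_max_left _ _), h6⟩

theorem ssubsets_sub (hF : Down F) {v : Finset ι} (hv : v ∈ F) : v.ssubsets ⊆ F :=
  fun r hr => hF.2 v hv r (Finset.mem_ssubsets.1 hr).1

/-- **Tameness over the families on `F`.** -/
theorem tx_fam {H : Cardinal.{u} → Cardinal.{u}} (hM : M.Calc) (hB : M.Big) (hRl : M.Real)
    (hU : M.Up) (hFr : FreeM M) (hH : ∀ σ < M.χ, H σ < M.χ)
    (hMd : ∀ j, 1 ≤ j → ∀ v ∈ F, j < v.card → Md M ι j)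
    (hCh : ∀ σ < M.χ, ∀ ρ < M.χ, ∀ τ < M.χ,
      ∃ (β : Type w) (St : (Finset ι → β) → Finset ι → Set C), Gen M H σ ρ τ F St)
    (hFU : ∀ v ∈ F, v.Nonempty → FU M v)
    (hT : ∀ w ∈ F, w.Nonempty → ∀ B, IFam M B w.ssubsets → IRef M B w.ssubsets →
      ∀ σ < M.χ, ∀ ρ < M.χ, M.TmL σ (H σ) ρ (iun B w.ssubsets))
    (hA : IFam M A F) (hR : IRef M A F)
    {σ ρ : Cardinal.{u}} (hσ : σ < M.χ) (hρ : ρ < M.χ) : M.TmL σ (H σ) ρ (iun A F) := by
  have hχ : (0 : Cardinal.{u}) < M.χ := aleph0_pos.trans_le M.hχ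
  have hls : ∀ X : Set C, #X ≤ M.χ → ∃ N ∈ M.S, X ⊆ N := hB.ls
  obtain ⟨τ₀, h1, h2⟩ := exists_max_lt (F := F) (p := fun v τ => v.Nonempty →
    ∀ A : Finset ι → Set C, IFam M A v.ssubsets → IRefL M τ A v.ssubsets →
      IRef M A v.ssubsets) hχ (fun v hv => by
    by_cases h0 : v.Nonempty
    · obtain ⟨τ, h3, h4⟩ := hFU v hv h0
      exact ⟨τ, h3, fun _ => h4⟩
    · exact ⟨0, hχ, fun h => absurd h h0⟩)
  refine tmL_of_gen hM hls hRl hFr hMd hA hR hσ (hH σ hσ) hρ fun B₀ hB₀ => ?_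
  obtain ⟨τ₁, h3, h4⟩ := exists_lel_coh hM hB hU hH F hA.down (fun v hv _ =>
    gdi_of_md hM hls v.card fun j hj hjv => hMd j hj v hv hjv) B₀ hB₀
  obtain ⟨β, St, hSt⟩ := hCh σ hσ ρ hρ (max τ₀ τ₁) (max_lt h1 h3)
  have hgen : StdGen M F St := by
    refine ⟨hSt.mem, hSt.mono, hSt.loc, hSt.conj, hSt.gap, fun b v hv hv0 => ?_⟩
    obtain ⟨τ', h5, h6⟩ := h2 v hv
    have h7 := ssubsets_sub hA.down hv
    exact h6 hv0 (St b) ⟨down_ssubsets hv0, fun r hr => hSt.mem b r (h7 hr),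
      fun r hr => hSt.mono b r (h7 hr)⟩ (((hSt.refL b).level
        (h5.trans (le_max_left _ _))).mono h7)
  refine ⟨β, St, hgen, hSt.tm, fun B b φ hBF hRB hc => ?_⟩
  refine h4 B (St b) φ hBF hRB ⟨hA.down, hSt.mem b, hSt.mono b⟩
    ((hSt.refL b).level (le_max_right _ _)) (fun w hw hw0 σ' hσ' ρ' hρ' => ?_) hc
  have h7 := ssubsets_sub hA.down hw
  have h8 := hT w hw hw0 B (hBF.sub (down_ssubsets hw0) h7) (hRB.mono h7) σ' hσ' ρ' hρ'
  rwa [iun_ssubsets] at h8

variable (M) in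
/-- **Uniform tameness** over the independent families with at most `m` directions. -/
def TX (ι : Type v) (H : Cardinal.{u} → Cardinal.{u}) (m : ℕ) : Prop :=
  ∀ (A : Finset ι → Set C) (s : Finset ι) (F : Finset (Finset ι)), s.card ≤ m →
    F ⊆ s.ssubsets → IFam M A F → IRef M A F → ∀ σ < M.χ, ∀ ρ < M.χ,
      M.TmL σ (H σ) ρ (iun A F)

/-- **The induction on the number of directions.** -/
theorem tx_all {H : Cardinal.{u} → Cardinal.{u}} (hM : M.Calc) (hB : M.Big) (hRl : M.Real)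
    (hU : M.Up) (hFr : FreeM M) (hH : ∀ σ < M.χ, H σ < M.χ) {k : ℕ}
    (hMd : ∀ j, 1 ≤ j → j ≤ k → Md M ι j)
    (hCh : ∀ F : Finset (Finset ι), Down F → ∀ σ < M.χ, ∀ ρ < M.χ, ∀ τ < M.χ,
      ∃ (β : Type w) (St : (Finset ι → β) → Finset ι → Set C), Gen M H σ ρ τ F St)
    (hFU : ∀ v : Finset ι, v.Nonempty → v.card ≤ k + 1 → TX M ι H v.card → FU M v) :
    ∀ m ≤ k + 2, TX M ι H m := by
  intro m
  induction m using Nat.strong_induction_on with
  | _ m ih =>
    intro hm A s F hs hF hA hR σ hσ ρ hρ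
    rcases lt_or_eq_of_le hs with h1 | h1
    · exact ih s.card h1 (hs.trans hm) A s F le_rfl hF hA hR σ hσ ρ hρ
    subst h1
    have hlt : ∀ v ∈ F, v.card < s.card := fun v hv =>
      Finset.card_lt_card (Finset.mem_ssubsets.1 (hF hv))
    refine tx_fam hM hB hRl hU hFr hH (fun j hj v hv hjv => hMd j hj ?_)
      (hCh F hA.down) (fun v hv hv0 => hFU v hv0 ?_ ?_) (fun v hv _ B hBF hRB => ?_) hA hR hσ hρ
    · have := hlt v hv
      omega
    · have := hlt v hv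
      omega
    · exact ih _ (hlt v hv) (by have := hlt v hv; omega)
    · exact ih _ (hlt v hv) (by have := hlt v hv; omega) B v _ le_rfl Finset.Subset.rfl hBF hRB

end Vale.Agent.P307.R2.H732
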