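import Vale.Agent.P307.R2.H806.Std

/-!
Order preserving maps of the indices extend to automorphisms of saturated EM models.
-/

set_option linter.unusedSectionVars false

universe u

open FirstOrder Cardinal Set

namespace Vale.Agent.P307.R2.H732

open Vale.Agent.P307 Vale.Agent.P307.H304 Vale.Agent.P307.R2.H287 Vale.Agent.P307.R2.H971
  Vale.Agent.P307.R2.H806 Language.Structure Language.Substructure

variable {L : Language.{u, u}} {K : AEC L} {ℓ θ ν : Cardinal.{u}}

/-- Order preserving maps of `θ` many indices extend to automorphisms. -/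
theorem exists_shift_aut (hK : K.IsLS ℓ) (hℓ : ℓ ≤ θ) (hν : ν ≤ θ) {t : Tpl K ν} {J : Type u}
    [LinearOrder J] (E : EM t J) (hsE : Sat K θ E.N) (hEc : #E.N = Order.succ θ) {U : Set J}
    (hU : #U = θ) (ψ : J → J) (hψ : StrictMonoOn ψ U) :
    ∃ s : E.N ≃[L] E.N, (∀ W ⊆ U, s '' (hullL E W : Set E.N) = hullL E (ψ '' W)) ∧
      ∀ W ⊆ U, (∀ w ∈ W, ψ w = w) → ∀ x ∈ hullL E W, s x = x := by
  obtain ⟨Eu⟩ := exists_em t U
  obtain ⟨j₁, h1, h1'⟩ := Eu.exists_map E (Subtype.val : U → J) fun _ _ h => h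
  obtain ⟨j₂, h2, h2'⟩ := Eu.exists_map E (fun u : U => ψ u) fun x y h => hψ x.2 y.2 h
  obtain ⟨s, hs⟩ := hsE.exists_iso hK hℓ hsE hEc hEc j₁ j₂ h1 h2 (Eu.card_eq hν hU)
  have key : ∀ W ⊆ U, ∀ r : (exLang L t.Λ).Term W,
      s (r.realize fun q : W => E.c q.1) = r.realize fun q : W => E.c (ψ q.1) := by
    intro W hW r
    have h3 := h1' (r.relabel fun q : W => (⟨q.1, hW q.2⟩ : U))
    have h4 := h2' (r.relabel fun q : W => (⟨q.1, hW q.2⟩ : U))
    rw [Language.Term.realize_relabel, Language.Term.realize_relabel] at h3 h4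
    refine Eq.trans ?_ ((hs _).trans h4)
    exact congrArg s h3.symm
  refine ⟨s, fun W hW => ?_, fun W hW hid x hx => ?_⟩
  · ext y
    constructor
    · rintro ⟨x, hx, rfl⟩
      obtain ⟨r, rfl⟩ := (mem_closure_image_iff E.c W x).1 hx
      rw [key W hW r]
      refine (mem_closure_image_iff E.c (ψ '' W) _).2 ⟨r.relabel fun q : W =>
        (⟨ψ q.1, ⟨q.1, q.2, rfl⟩⟩ : (ψ '' W : Set J)), ?_⟩
      rw [Language.Term.realize_relabel]
      rfl
    · intro hy
      obtain ⟨r, hr⟩ := (mem_closure_image_iff E.c (ψ '' W) y).1 hy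
      choose p hp1 hp2 using fun q : (ψ '' W : Set J) => q.2
      refine ⟨(r.relabel fun q : (ψ '' W : Set J) => (⟨p q, hp1 q⟩ : W)).realize
        fun q : W => E.c q.1, (mem_closure_image_iff E.c W _).2 ⟨_, rfl⟩, ?_⟩
      rw [key W hW, Language.Term.realize_relabel, ← hr]
      congr 1
      funext q
      exact congrArg E.c (hp2 q)
  · obtain ⟨r, rfl⟩ := (mem_closure_image_iff E.c W x).1 hx
    rw [key W hW r]
    congr 1
    funext q
    exact congrArg E.c (hid q.1 q.2)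

/-- An automorphism which fixes the part below `a` and moves the part between `a` and `b` above
`c`. -/
theorem exists_shift_low (hK : K.IsLS ℓ) (hℓ : ℓ ≤ θ) (hν : ν ≤ θ) {t : Tpl K ν} {F : Type u}
    [LinearOrder F] (hF : #F ≤ θ) (E : EM t (SuccTy θ ⊕ₗ F)) (hsE : Sat K θ E.N)
    (hEc : #E.N = Order.succ θ) {a b : SuccTy θ} (hab : a ≤ b) (hb : #(Iio b) = θ)
    (c : SuccTy θ) :
    ∃ (s : E.N ≃[L] E.N) (V : Set (SuccTy θ)), V ⊆ Ici c ∧ #V ≤ θ ∧
      (∀ x ∈ hullL E (low F (Iio a)), s x = x) ∧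
      s '' (hullL E (low F (Iio b)) : Set E.N) = hullL E (low F (Iio a ∪ V)) := by
  classical
  have hθ : ℵ₀ ≤ θ := hK.1.trans hℓ
  obtain ⟨φ, hφ1, hφ2⟩ := exists_strictMono_above hθ (W := Iio b) (mk_Iio_succTy b) (max a c)
  let ψ₀ : SuccTy θ → SuccTy θ := fun x => if hx : x < b ∧ a ≤ x then φ ⟨x, hx.1⟩ else x
  have hψa : ∀ x, x < a → ψ₀ x = x := fun x hx => dif_neg fun h => absurd h.2 (not_le.2 hx)
  have hψb : ∀ x (hx : x < b), a ≤ x → ψ₀ x = φ ⟨x, hx⟩ := fun x hx hx' => dif_pos ⟨hx, hx'⟩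
  have hmono : ∀ x < b, ∀ y < b, x < y → ψ₀ x < ψ₀ y := by
    intro x hx y hy hxy
    rcases lt_or_ge x a with h1 | h1
    · rw [hψa x h1]
      rcases lt_or_ge y a with h2 | h2
      · rwa [hψa y h2]
      · rw [hψb y hy h2]
        exact h1.trans_le ((le_max_left _ _).trans (hφ2 _))
    · rw [hψb x hx h1, hψb y hy (h1.trans hxy.le)]
      exact hφ1 hxy
  let ψ : SuccTy θ ⊕ₗ F → SuccTy θ ⊕ₗ F := fun x => toLex (Sum.map ψ₀ id (ofLex x))
  have hψl : ∀ x : SuccTy θ, ψ (toLex (Sum.inl x)) = toLex (Sum.inl (ψ₀ x)) := fun _ => rfl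
  have hψr : ∀ x : F, ψ (toLex (Sum.inr x)) = toLex (Sum.inr x) := fun _ => rfl
  have hU : #(low F (Iio b)) = θ := le_antisymm (mk_low_le hθ hb.le hF) (le_mk_low hb.ge)
  obtain ⟨s, hs1, hs2⟩ := exists_shift_aut hK hℓ hν E hsE hEc hU ψ (by
    intro x hx y hy hxy
    rcases h : ofLex x with x₁ | x₂ <;> rcases h' : ofLex y with y₁ | y₂
    · have e1 : x = toLex (Sum.inl x₁) := h
      have e2 : y = toLex (Sum.inl y₁) := h'
      subst e1 e2
      rw [hψl, hψl]
      exact Sum.Lex.inl_lt_inl_iff.2 (hmono _ (mem_Iio.1 (inl_mem_low.1 hx)) _ (mem_Iio.1 (inl_mem_low.1 hy))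
        (Sum.Lex.inl_lt_inl_iff.1 hxy))
    · have e1 : x = toLex (Sum.inl x₁) := h
      have e2 : y = toLex (Sum.inr y₂) := h'
      subst e1 e2
      rw [hψl, hψr]
      exact Sum.Lex.inl_lt_inr _ _
    · have e1 : x = toLex (Sum.inr x₂) := h
      have e2 : y = toLex (Sum.inl y₁) := h'
      subst e1 e2
      exact absurd hxy Sum.Lex.not_inr_lt_inl
    · have e1 : x = toLex (Sum.inr x₂) := h
      have e2 : y = toLex (Sum.inr y₂) := h'
      subst e1 e2
      rw [hψr, hψr]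
      exact hxy)
  refine ⟨s, (fun x => ψ₀ x) '' (Ico a b), ?_, ?_, ?_, ?_⟩
  · rintro _ ⟨x, hx, rfl⟩
    change c ≤ ψ₀ x
    rw [hψb x hx.2 hx.1]
    exact (le_max_right _ _).trans (hφ2 _)
  · exact mk_image_le.trans ((mk_le_mk_of_subset Ico_subset_Iio_self).trans hb.le)
  · refine hs2 _ (low_mono (Iio_subset_Iio hab)) ?_
    intro w hw
    rcases h : ofLex w with w₁ | w₂
    · have e1 : w = toLex (Sum.inl w₁) := h
      subst e1
      rw [hψl, hψa _ (mem_Iio.1 (inl_mem_low.1 hw))]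
    · have e1 : w = toLex (Sum.inr w₂) := h
      subst e1
      exact hψr w₂
  · rw [hs1 _ Subset.rfl]
    congr 2
    ext y
    constructor
    · rintro ⟨x, hx, rfl⟩
      rcases h : ofLex x with x₁ | x₂
      · have e1 : x = toLex (Sum.inl x₁) := h
        subst e1
        rw [hψl]
        refine inl_mem_low.2 ?_
        have hx1 : x₁ < b := mem_Iio.1 (inl_mem_low.1 hx)
        rcases lt_or_ge x₁ a with h1 | h1
        · rw [hψa x₁ h1]
          exact Or.inl h1
        · exact Or.inr ⟨x₁, ⟨h1, hx1⟩, rfl⟩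
      · have e1 : x = toLex (Sum.inr x₂) := h
        subst e1
        exact inr_mem_low
    · intro hy
      rcases h : ofLex y with y₁ | y₂
      · have e1 : y = toLex (Sum.inl y₁) := h
        subst e1
        rcases inl_mem_low.1 hy with h1 | ⟨x, hx, h1⟩
        · refine ⟨toLex (Sum.inl y₁), inl_mem_low.2 (lt_of_lt_of_le h1 hab), ?_⟩
          rw [hψl, hψa _ h1]
        · refine ⟨toLex (Sum.inl x), inl_mem_low.2 hx.2, ?_⟩
          rw [hψl]
          exact congrArg (fun z => (toLex (Sum.inl z) : SuccTy θ ⊕ₗ F)) h1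
      · have e1 : y = toLex (Sum.inr y₂) := h
        subst e1
        exact ⟨_, inr_mem_low, hψr y₂⟩

end Vale.Agent.P307.R2.H732
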