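import Vale.Agent.P307.R2.H732.Up
import Vale.Agent.P307.R2.H732.Shift
import Vale.Agent.P307.R2.H806.DBase

/-!
Free extensions of strong submodels which are standard over a given standard submodel.
-/

set_option linter.unusedSectionVars false

universe u

open FirstOrder Cardinal Set

namespace Vale.Agent.P307.R2.H541

open Vale.Agent.P307 Vale.Agent.P307.H304 Vale.Agent.P307.R2.H287 Vale.Agent.P307.R2.H1
  Vale.Agent.P307.R2.H971 Vale.Agent.P307.R2.H804 Vale.Agent.P307.R2.H514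
  Vale.Agent.P307.R2.H806 Vale.Agent.P307.R2.H732 Language.Structure Language.Substructure

variable {L : Language.{u, u}} {K : AEC L} {ℓ θ : Cardinal.{u}}
  {κf α : Cardinal.{u} → Cardinal.{u}} {C : Type u} [L.Structure C]

/-- The position given by an isomorphism. -/
theorem exists_pos_of_equiv (hθ : ℵ₀ ≤ θ) (hℓ : ℓ ≤ θ) {t : Tpl K ℓ} {F : Type u} [LinearOrder F]
    (hF : #F ≤ θ) (E : EM t (SuccTy θ ⊕ₗ F)) (g : E.N ≃[L] C) {a : SuccTy θ}
    (ha : #(Iio a) = θ) : ∃ x : Pos K θ E.N C, IsStd x a ∧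
      (∀ p ∈ x.R, g p.1 = p.2) ∧ (x.S' : Set C) = g '' (hullL E (low F (Iio a)) : Set E.N) := by
  have hc := mk_hullL_low (E := E) hθ hℓ hF ha
  obtain ⟨x, hx⟩ := exists_pos_of_emb (hullL E (low F (Iio a))).subtype
    (g.toEmbedding.comp (hullL E (low F (Iio a))).subtype) (AEC.emb_subtype.2 (le_hullL E _))
    (AEC.Emb.comp (AEC.Emb.of_equiv g E.mem) (AEC.emb_subtype.2 (le_hullL E _))) hc
  refine ⟨x, ?_, ?_, ?_⟩
  · apply SetLike.coe_injective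
    rw [x.fst, hx]
    ext z
    constructor
    · rintro ⟨_, ⟨y, rfl⟩, rfl⟩
      exact y.2
    · intro hz
      exact ⟨_, ⟨⟨z, hz⟩, rfl⟩, rfl⟩
  · rw [hx]
    rintro _ ⟨y, rfl⟩
    rfl
  · rw [x.snd, hx]
    ext z
    constructor
    · rintro ⟨_, ⟨y, rfl⟩, rfl⟩
      exact ⟨y, y.2, rfl⟩
    · rintro ⟨y, hy, rfl⟩
      exact ⟨_, ⟨⟨y, hy⟩, rfl⟩, rfl⟩

/-- The chart of a standard position, with an isomorphism. -/
theorem IsStd.image {t : Tpl K ℓ} {F : Type u} [LinearOrder F] {E : EM t (SuccTy θ ⊕ₗ F)}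
    {x : Pos K θ E.N C} {a : SuccTy θ} (hx : IsStd x a) (g : E.N ≃[L] C)
    (hg : ∀ p ∈ x.R, g p.1 = p.2) :
    g '' (hullL E (low F (Iio a)) : Set E.N) = x.S' := by
  rw [← hx, x.fst, x.snd]
  ext z
  constructor
  · rintro ⟨_, ⟨p, hp, rfl⟩, rfl⟩
    exact ⟨p, hp, (hg p hp).symm⟩
  · rintro ⟨p, hp, rfl⟩
    exact ⟨_, ⟨p, hp, rfl⟩, hg p hp⟩

section

variable (h₀ : BasePt K ℓ κf α θ) (hK : K.IsLS ℓ)
  (hunb : ∀ ν, ν < κf ν ∧ K.CategoricalIn (κf ν)) (hst : Stab K ℓ α (H287.thr κf))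
  (hCm : K.mem C) (hs : Sat K θ C) (hCc : #C = Order.succ θ)

include h₀ hK hunb hst hCm hs hCc

/-- From free position to independence. -/
theorem indL_of_coH {τ : Cardinal.{u}} (hℓτ : ℓ ≤ τ) (hτ : τ < θ) {A A' B D : Set C}
    (h : CoH L τ (α τ) B A' D) (hA : D ∪ A ⊆ A') :
    (pg h₀ hK hunb hst hCm hs hCc).IndL τ D A B := by
  intro X hX hXτ Y hY hYτ
  obtain ⟨r', h1, h2⟩ := h Y X hYτ hXτ (fun y => y) (fun x => x) (fun y => hY y.2)
    fun x => hA (hX x.2)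
  obtain ⟨g, hg, hg'⟩ := exists_mem_autG h₀ hK hunb hst hCm hs hCc hℓτ hτ
    (mk_sum_le' (hK.1.trans hℓτ) hXτ hYτ) _ _ h2
  refine ⟨g, hg, fun x hx => hg' (Sum.inl ⟨x, hx⟩), fun y hy => ?_⟩
  have h3 : g y = r' ⟨y, hy⟩ := hg' (Sum.inr ⟨y, hy⟩)
  rw [h3]
  exact h1 _

/-- The independence of standard submodels. -/
theorem indL_std {τ : Cardinal.{u}} (hℓτ : ℓ ≤ τ) (hτ : τ < θ) {t : Tpl K ℓ}
    (E : EM t (SuccTy θ ⊕ₗ TailTy τ)) (g : E.N ≃[L] C) {a c : SuccTy θ} (hac : a ≤ c)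
    {W : Set (SuccTy θ)} (hW : ∀ x ∈ W, x < c → x < a) :
    (pg h₀ hK hunb hst hCm hs hCc).IndL τ
      (g '' (hullL E (low (TailTy τ) (Iio a)) : Set E.N))
      (g '' (hullL E (low (TailTy τ) (Iio c)) : Set E.N))
      (g '' (hullL E (low (TailTy τ) W) : Set E.N)) := by
  have hτ0 : ℵ₀ ≤ τ := hK.1.trans hℓτ
  have hτα : τ ≤ α τ := (hst τ hℓτ).1
  have hEc := card_em (aleph0_le_pt h₀ hK) h₀.pt.lt.le hτ0 (Order.succ_le_of_lt hτ) E
  have h1 := (coH_em hK hunb hℓτ hτα E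
    ((h₀.pt.thr _ (h₀.al τ hτ)).le.trans ((Order.le_succ θ).trans hEc.ge)) (s := Iio c)
    (s' := Iio a) (fun x hx y hy => lt_of_lt_of_le hx (not_lt.1 hy)) (W := low (TailTy τ) W)
    fun x hx hxW => hW x (inl_mem_low.1 hxW) hx).equiv (hτ0.trans hτα) hτα g
  exact indL_of_coH h₀ hK hunb hst hCm hs hCc hℓτ hτ h1
    (union_subset (image_mono (hullL_mono E (low_mono (Iio_subset_Iio hac)))) Subset.rfl)

/-- **Free standard extensions.** -/
theorem exists_std_free {τ : Cardinal.{u}} (hℓτ : ℓ ≤ τ) (hτ : τ < θ) {t : Tpl K ℓ}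
    (E : EM t (SuccTy θ ⊕ₗ TailTy τ)) (g₀ : E.N ≃[L] C) {a₀ : SuccTy θ} (ha₀ : #(Iio a₀) = θ)
    (A : L.Substructure C) (hA : K.le A) (hAc : #A = θ)
    (hgA : g₀ '' (hullL E (low (TailTy τ) (Iio a₀)) : Set E.N) ⊆ A) (Q : Set C) (hQ : #Q ≤ θ)
    (c₀ : SuccTy θ) :
    ∃ (g : E.N ≃[L] C) (b : SuccTy θ), a₀ < b ∧ c₀ < b ∧ #(Iio b) = θ ∧
      (∀ x ∈ hullL E (low (TailTy τ) (Iio a₀)), g x = g₀ x) ∧
      (A : Set C) ⊆ g '' (hullL E (low (TailTy τ) (Iio b)) : Set E.N) ∧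
      (pg h₀ hK hunb hst hCm hs hCc).IndL τ A Q
        (g '' (hullL E (low (TailTy τ) (Iio b)) : Set E.N)) := by
  have hθ := aleph0_le_pt h₀ hK
  have hℓθ : ℓ ≤ θ := h₀.pt.lt.le
  have hτ0 : ℵ₀ ≤ τ := hK.1.trans hℓτ
  have hF : #(TailTy τ) ≤ θ := (mk_tailTy hτ0).trans_le (Order.succ_le_of_lt hτ)
  have hsE : Sat K θ E.N := sat_em_low h₀.ab hK hℓθ (h₀.largeExt hK hunb _) t hℓθ hF E
  have hEc := card_em hθ hℓθ hτ0 (Order.succ_le_of_lt hτ) E
  have hCθ : θ ≤ #C := (Order.le_succ θ).trans hCc.ge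
  obtain ⟨x, hx, hxg, hxS⟩ := exists_pos_of_equiv hθ hℓθ hF E g₀ ha₀
  obtain ⟨z, a₁, hz, hzA, ha₁⟩ := exists_std_init hθ hℓθ hF h₀.pt.cat E A hA hAc a₀
  -- the two chains of charts
  have step : ∀ p : (Pos K θ E.N C × SuccTy θ) × (Pos K θ E.N C × SuccTy θ),
      ∃ q : (Pos K θ E.N C × SuccTy θ) × (Pos K θ E.N C × SuccTy θ),
        IsStd q.1.1 q.1.2 ∧ IsStd q.2.1 q.2.2 ∧ p.1.1 ≤ q.1.1 ∧ p.2.1 ≤ q.2.1 ∧
        p.1.2 < q.1.2 ∧ p.2.2 < q.2.2 ∧ c₀ < q.1.2 ∧ (p.2.1.S' : Set C) ⊆ q.1.1.S' ∧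
        (q.1.1.S' : Set C) ⊆ q.2.1.S' := by
    intro p
    obtain ⟨y, b, h1, h2, -, h3, h4⟩ := exists_std_ext hK hℓθ hℓθ hF hCm hCθ hsE hs p.1.1 ∅
      (p.2.1.S' : Set C) (by simp) p.2.1.card'.le (max p.1.2 c₀)
    obtain ⟨w, d, h5, h6, -, h7, h8⟩ := exists_std_ext hK hℓθ hℓθ hF hCm hCθ hsE hs p.2.1 ∅
      (y.S' : Set C) (by simp) y.card'.le p.2.2
    exact ⟨⟨⟨y, b⟩, ⟨w, d⟩⟩, h1, h5, h2, h6, (le_max_left _ _).trans_lt h4, h8,
      (le_max_right _ _).trans_lt h4, h3, h7⟩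
  choose st hst1 hst2 hst3 hst4 hst5 hst6 hst7 hst8 hst9 using step
  let s : ℕ → (Pos K θ E.N C × SuccTy θ) × (Pos K θ E.N C × SuccTy θ) :=
    fun n => Nat.rec ((x, a₀), (z, a₁)) (fun _ p => st p) n
  have hm1 : Monotone fun n => (s n).1.1 := monotone_nat_of_le_succ fun n => hst3 (s n)
  have hm2 : Monotone fun n => (s n).2.1 := monotone_nat_of_le_succ fun n => hst4 (s n)
  have hm3 : StrictMono fun n => (s n).1.2 := strictMono_nat_of_lt_succ fun n => hst5 (s n)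
  have hm4 : StrictMono fun n => (s n).2.2 := strictMono_nat_of_lt_succ fun n => hst6 (s n)
  have hstd1 : ∀ n, IsStd (s n).1.1 (s n).1.2 := by
    intro n
    cases n with
    | zero => exact hx
    | succ n => exact hst1 (s n)
  have hstd2 : ∀ n, IsStd (s n).2.1 (s n).2.2 := by
    intro n
    cases n with
    | zero => exact hz
    | succ n => exact hst2 (s n)
  have hN : #(ULift.{u} ℕ) ≤ θ := by
    rw [mk_uLift, mk_nat, lift_aleph0]
    exact hθ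
  obtain ⟨y, b, hy, hyR, hb⟩ := exists_std_iUnion (ι := ULift.{u} ℕ) hθ hN
    (fun n => (s n.down).1.1) (fun n => (s n.down).1.2) (fun n m h => hm1 h)
    (fun n m h => hm3.monotone h) fun n => hstd1 n.down
  obtain ⟨w, d, hw, hwR, hd⟩ := exists_std_iUnion (ι := ULift.{u} ℕ) hθ hN
    (fun n => (s n.down).2.1) (fun n => (s n.down).2.2) (fun n m h => hm2 h)
    (fun n m h => hm4.monotone h) fun n => hstd2 n.down
  have hxy : x ≤ y := by
    rw [Pos.le_def, hyR]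
    exact subset_iUnion (fun n : ULift.{u} ℕ => (s n.down).1.1.R) ⟨0⟩
  have hzw : z ≤ w := by
    rw [Pos.le_def, hwR]
    exact subset_iUnion (fun n : ULift.{u} ℕ => (s n.down).2.1.R) ⟨0⟩
  have hyw : (y.S' : Set C) = w.S' := by
    rw [y.snd, w.snd, hyR, hwR, image_iUnion, image_iUnion]
    apply Subset.antisymm
    · refine iUnion_subset fun n => ?_
      rw [← (s n.down).1.1.snd]
      have h1 : ((s n.down).1.1.S' : Set C) ⊆ (s (n.down + 1)).1.1.S' :=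
        Pos.S'_mono (hst3 (s n.down))
      refine (h1.trans (hst9 (s n.down))).trans ?_
      rw [(st (s n.down)).2.1.snd]
      exact subset_iUnion (fun n : ULift.{u} ℕ => Prod.snd '' (s n.down).2.1.R) ⟨n.down + 1⟩
    · refine iUnion_subset fun n => ?_
      rw [← (s n.down).2.1.snd]
      refine (hst8 (s n.down)).trans ?_
      rw [(st (s n.down)).1.1.snd]
      exact subset_iUnion (fun n : ULift.{u} ℕ => Prod.snd '' (s n.down).1.1.R) ⟨n.down + 1⟩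
  have ha₀b : a₀ < b := (hst5 (s 0)).trans_le (hb.1 ⟨⟨1⟩, rfl⟩)
  have hc₀b : c₀ < b := (hst7 (s 0)).trans_le (hb.1 ⟨⟨1⟩, rfl⟩)
  have ha₁d : a₁ ≤ d := hd.1 ⟨⟨0⟩, rfl⟩
  have hcard : ∀ e : SuccTy θ, a₀ ≤ e → #(Iio e) = θ := fun e he =>
    le_antisymm (mk_Iio_succTy e) (ha₀.ge.trans (mk_le_mk_of_subset (Iio_subset_Iio he)))
  -- a chart which contains `Q`
  obtain ⟨q, c, hq, hwq, -, hQq, hdc⟩ := exists_std_ext hK hℓθ hℓθ hF hCm hCθ hsE hs w ∅ Q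
    (by simp) hQ d
  obtain ⟨gy, hgy⟩ := y.exists_iso hK hℓθ E.mem hCm hsE hs hEc hCc
  obtain ⟨gq, hgq⟩ := q.exists_iso hK hℓθ E.mem hCm hsE hs hEc hCc
  obtain ⟨σ, V, hV, -, hσ1, hσ2⟩ := exists_shift_low hK hℓθ hℓθ hF E hsE hEc ha₁d
    (hcard d (ha₁.le.trans ha₁d)) c
  have hAq : gq '' (hullL E (low (TailTy τ) (Iio a₁)) : Set E.N) = A := by
    rw [IsStd.image hz gq fun p hp => hgq p (hwq (hzw hp)), hzA]
  have hwq' : gq '' (hullL E (low (TailTy τ) (Iio d)) : Set E.N) = w.S' :=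
    IsStd.image hw gq fun p hp => hgq p (hwq hp)
  have hyg : gy '' (hullL E (low (TailTy τ) (Iio b)) : Set E.N) = y.S' :=
    IsStd.image hy gy hgy
  have hqg : gq '' (hullL E (low (TailTy τ) (Iio c)) : Set E.N) = q.S' :=
    IsStd.image hq gq hgq
  let k : C ≃[L] C := (gq.comp σ).comp gq.symm
  have hk : ∀ v, k (gq v) = gq (σ v) := by
    intro v
    change gq (σ (gq.symm (gq v))) = _
    rw [Language.Equiv.symm_apply_apply]
  have hkA : ∀ v ∈ A, k v = v := by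
    intro v hv
    rw [← SetLike.mem_coe, ← hAq] at hv
    obtain ⟨v', hv', rfl⟩ := hv
    rw [hk, hσ1 v' hv']
  have himg : (k.comp gy) '' (hullL E (low (TailTy τ) (Iio b)) : Set E.N) =
      gq '' (hullL E (low (TailTy τ) (Iio a₁ ∪ V)) : Set E.N) := by
    rw [← hσ2]
    have h1 : (k.comp gy) '' (hullL E (low (TailTy τ) (Iio b)) : Set E.N) =
        k '' (gy '' (hullL E (low (TailTy τ) (Iio b)) : Set E.N)) := by
      rw [image_image]
      rfl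
    rw [h1, hyg, hyw, ← hwq', image_image, image_image]
    exact image_congr fun v _ => hk v
  refine ⟨k.comp gy, b, ha₀b, hc₀b, hcard b ha₀b.le, ?_, ?_, ?_⟩
  · intro v hv
    have h1 : v ∈ x.S := by
      rw [hx]
      exact hv
    rw [← SetLike.mem_coe, x.fst] at h1
    obtain ⟨p, hp, rfl⟩ := h1
    change k (gy p.1) = g₀ p.1
    rw [hgy p (hxy hp), hxg p hp]
    refine hkA _ (hgA ?_)
    rw [← hxS, x.snd]
    exact ⟨p, hp, rfl⟩
  · rw [himg, ← hAq]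
    exact image_mono (hullL_mono E (low_mono subset_union_left))
  · rw [himg, ← hAq]
    refine (indL_std h₀ hK hunb hst hCm hs hCc hℓτ hτ E gq (ha₁d.trans hdc.le)
      (W := Iio a₁ ∪ V) ?_).mono ?_ Subset.rfl
    · rintro v (hv | hv) hvc
      · exact hv
      · exact absurd hvc (not_lt.2 (hV hv))
    · rw [hqg]
      exact hQq

end

end Vale.Agent.P307.R2.H541
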