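import Vale.Agent.P307.R2.H732.TmStd
import Vale.Agent.P307.R2.H732.StdExt
import Vale.Agent.P307.R2.H806.RealPG

/-!
Tameness of the types over the union of two independent strong submodels.
-/

set_option linter.unusedSectionVars false

universe u

open FirstOrder Cardinal Set

namespace Vale.Agent.P307.R2.H541

open Vale.Agent.P307 Vale.Agent.P307.H304 Vale.Agent.P307.R2.H287 Vale.Agent.P307.R2.H1
  Vale.Agent.P307.R2.H971 Vale.Agent.P307.R2.H804 Vale.Agent.P307.R2.H514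
  Vale.Agent.P307.R2.H806 Vale.Agent.P307.R2.H732 Language.Structure Language.Substructure

theorem le_mk_index (θ : Cardinal.{u}) (F : Type u) [LinearOrder F] : θ ≤ #(SuccTy θ ⊕ₗ F) := by
  have h1 : #(SuccTy θ) ≤ #(SuccTy θ ⊕ₗ F) := mk_le_of_injective
    (f := fun a : SuccTy θ => (toLex (Sum.inl a) : SuccTy θ ⊕ₗ F))
    fun a b hab => Sum.inl_injective (toLex.injective hab)
  refine le_trans ?_ h1
  rw [mk_toType, card_ord]
  exact Order.le_succ θ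

/-- The two standard submodels are mixing over three points. -/
theorem mix_two {T F : Type u} [LinearOrder T] [LinearOrder F] {a b c : T} (hab : a ≤ b)
    (hbc : b ≤ c) (V : Set T) (hV : V ⊆ Ici b) (hVc : ∀ x ∈ V, x < c) :
    ∀ i : ULift.{u} Bool, ∀ w ∈ (if i.down then low F (Iio b) else low F (Iio a ∪ V)),
      w ∉ ({toLex (Sum.inl a), toLex (Sum.inl b), toLex (Sum.inl c)} : Set (T ⊕ₗ F)) →
      ∀ i' : ULift.{u} Bool, ∀ w' ∈ (if i'.down then low F (Iio b) else low F (Iio a ∪ V)),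
        w' ∉ ({toLex (Sum.inl a), toLex (Sum.inl b), toLex (Sum.inl c)} : Set (T ⊕ₗ F)) →
        (∀ x ∈ ({toLex (Sum.inl a), toLex (Sum.inl b), toLex (Sum.inl c)} : Set (T ⊕ₗ F)),
          x < w ↔ x < w') → w' ∈ (if i.down then low F (Iio b) else low F (Iio a ∪ V)) := by
  rintro ⟨i⟩ w hw hws ⟨i'⟩ w' hw' hws' hcut
  rcases h' : ofLex w' with x' | y'
  swap
  · have e1 : w' = toLex (Sum.inr y') := h'
    subst e1
    cases i
    · exact inr_mem_low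
    · exact inr_mem_low
  have e1 : w' = toLex (Sum.inl x') := h'
  subst e1
  have hx'a : x' ≠ a := fun h => hws' (by rw [h]; exact Or.inl rfl)
  have hx'b : x' ≠ b := fun h => hws' (by rw [h]; exact Or.inr (Or.inl rfl))
  have hx'c : x' < c := by
    cases i'
    · rcases inl_mem_low.1 hw' with h | h
      · exact (lt_of_lt_of_le (mem_Iio.1 h) hab).trans_le hbc
      · exact hVc x' h
    · exact (mem_Iio.1 (inl_mem_low.1 hw')).trans_le hbc
  rcases h : ofLex w with x | y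
  swap
  · have e2 : w = toLex (Sum.inr y) := h
    subst e2
    have h1 := (hcut (toLex (Sum.inl c)) (Or.inr (Or.inr rfl))).1 (Sum.Lex.inl_lt_inr _ _)
    exact absurd (Sum.Lex.inl_lt_inl_iff.1 h1) (not_lt.2 hx'c.le)
  have e2 : w = toLex (Sum.inl x) := h
  subst e2
  have hxa : x ≠ a := fun h => hws (by rw [h]; exact Or.inl rfl)
  have hxb : x ≠ b := fun h => hws (by rw [h]; exact Or.inr (Or.inl rfl))
  have ca : a < x ↔ a < x' := by
    have h1 := hcut (toLex (Sum.inl a)) (Or.inl rfl)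
    rwa [Sum.Lex.inl_lt_inl_iff, Sum.Lex.inl_lt_inl_iff] at h1
  have cb : b < x ↔ b < x' := by
    have h1 := hcut (toLex (Sum.inl b)) (Or.inr (Or.inl rfl))
    rwa [Sum.Lex.inl_lt_inl_iff, Sum.Lex.inl_lt_inl_iff] at h1
  cases i
  · change toLex (Sum.inl x') ∈ low F (Iio a ∪ V)
    have hw1 : x ∈ Iio a ∪ V := inl_mem_low.1 hw
    refine inl_mem_low.2 ?_
    rcases lt_or_ge x' a with h1 | h1
    · exact Or.inl h1
    · have h2 : a < x := ca.2 (lt_of_le_of_ne h1 hx'a.symm)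
      have h3 : x ∈ V := hw1.resolve_left fun h => absurd (mem_Iio.1 h) (not_lt.2 h2.le)
      have h4 : b < x' := cb.1 (lt_of_le_of_ne (hV h3) hxb.symm)
      cases i'
      · exact inl_mem_low.1 hw'
      · exact absurd (mem_Iio.1 (inl_mem_low.1 hw')) (not_lt.2 h4.le)
  · change toLex (Sum.inl x') ∈ low F (Iio b)
    have hw1 : x < b := mem_Iio.1 (inl_mem_low.1 hw)
    refine inl_mem_low.2 ?_
    by_contra h1
    have h2 : b < x' := lt_of_le_of_ne (not_lt.1 h1) hx'b.symm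
    exact absurd (cb.2 h2) (not_lt.2 hw1.le)

namespace PG

variable {C : Type u} {M : PG C}

theorem image_eq_of_fix {g : Equiv.Perm C} {P : Set C} (h : ∀ x ∈ P, g x = x) : g '' P = P := by
  ext x
  constructor
  · rintro ⟨y, hy, rfl⟩
    rwa [h y hy]
  · intro hx
    exact ⟨x, hx, h x hx⟩

/-- Two maps over `P` which are glued along independent sets. -/
theorem Up.glue (hM : M.Calc) {P : Set C} (hP : P ∈ M.S) {a b : Set C} (ha : #a < M.χ)
    (hb : #b < M.χ) (hab : M.Ind P a b) {u v : Equiv.Perm C} (hu : u ∈ M.G) (hv : v ∈ M.G)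
    (huP : ∀ x ∈ P, u x = x) (hvP : ∀ x ∈ P, v x = x) (huv : M.Ind P (u '' a) (v '' b)) :
    ∃ h ∈ M.G, (∀ x ∈ a, h x = u x) ∧ ∀ x ∈ b, h x = v x := by
  have hu' : u⁻¹ ∈ M.G := M.G.inv_mem hu
  have huP' : ∀ x ∈ P, u⁻¹ x = x := fun x hx => fix_inv (huP x hx)
  have h1 := huv.smul hu'
  rw [image_eq_of_fix huP'] at h1
  have h2 : (u⁻¹ : Equiv.Perm C) '' (u '' a) = a := by
    rw [image_image]
    simp only [inv_ap, image_id']
  have h3 : (u⁻¹ : Equiv.Perm C) '' (v '' b) = (u⁻¹ * v : Equiv.Perm C) '' b := by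
    rw [image_image]
    rfl
  rw [h2, h3] at h1
  obtain ⟨p, hp, hpc, hbase⟩ := hM.based hP ha
  obtain ⟨h, hh, -, h4, h5⟩ := hbase (u⁻¹ * v) (M.G.mul_mem hu' hv) (fun x hx => by
    rw [Equiv.Perm.mul_apply, hvP x (hp hx), huP' x (hp hx)]) b hb hab h1
  refine ⟨u * h, M.G.mul_mem hu hh, fun x hx => ?_, fun x hx => ?_⟩
  · rw [Equiv.Perm.mul_apply, h4 x hx]
  · rw [Equiv.Perm.mul_apply, h5 x hx, Equiv.Perm.mul_apply, ap_inv]

/-- The reflection for two free extensions. -/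
theorem IndL.refl_two {τ H σ : Cardinal.{u}} {A B A' B' Q : Set C} {g : Equiv.Perm C}
    (hQ : #Q ≤ σ) (hτ : H + (σ + σ) ≤ τ) (hA : M.IndL τ A (B' ∪ (Q ∪ g '' Q)) A')
    (hB : M.IndL τ B (A ∪ (Q ∪ g '' Q)) B') :
    ∀ D ⊆ A' ∪ B', #D ≤ H → ∃ k ∈ M.G, (∀ e ∈ Q, k e = e) ∧ (∀ e ∈ Q, k (g e) = g e) ∧
      ∀ a ∈ D, k a ∈ A ∪ B := by
  intro D hD hDH
  have hQg : #(Q ∪ g '' Q : Set C) ≤ σ + σ :=
    (mk_union_le _ _).trans (add_le_add hQ (mk_image_le.trans hQ))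
  have hHτ : H ≤ τ := (self_le_add_right _ _).trans hτ
  have hsub : ∀ X : Set C, #(D ∩ X : Set C) ≤ H := fun X =>
    (mk_le_mk_of_subset inter_subset_left).trans hDH
  obtain ⟨k₁, hk₁, h1, h2⟩ := hA ((D ∩ B') ∪ (Q ∪ g '' Q)) (by
    rintro x (hx | hx)
    · exact Or.inr (Or.inl hx.2)
    · exact Or.inr (Or.inr hx)) ((mk_union_le _ _).trans ((add_le_add (hsub _) hQg).trans hτ))
    (D ∩ A') inter_subset_right ((hsub _).trans hHτ)
  obtain ⟨k₂, hk₂, h3, h4⟩ := hB ((k₁ '' (D ∩ A')) ∪ (Q ∪ g '' Q)) (by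
    rintro x (⟨y, hy, rfl⟩ | hx)
    · exact Or.inr (Or.inl (h2 y hy))
    · exact Or.inr (Or.inr hx)) ((mk_union_le _ _).trans
      ((add_le_add (mk_image_le.trans (hsub _)) hQg).trans hτ))
    (D ∩ B') inter_subset_right ((hsub _).trans hHτ)
  refine ⟨k₂ * k₁, M.G.mul_mem hk₂ hk₁, fun e he => ?_, fun e he => ?_, fun a ha => ?_⟩
  · rw [Equiv.Perm.mul_apply, h1 e (Or.inr (Or.inl he)), h3 e (Or.inr (Or.inl he))]
  · have h5 : g e ∈ g '' Q := mem_image_of_mem g he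
    rw [Equiv.Perm.mul_apply, h1 _ (Or.inr (Or.inr h5)), h3 _ (Or.inr (Or.inr h5))]
  · rcases hD ha with hx | hx
    · rw [Equiv.Perm.mul_apply, h3 _ (Or.inl (mem_image_of_mem k₁ ⟨ha, hx⟩))]
      exact Or.inl (h2 a ⟨ha, hx⟩)
    · rw [Equiv.Perm.mul_apply, h1 a (Or.inl ⟨ha, hx⟩)]
      exact Or.inr (h4 a ⟨ha, hx⟩)

end PG

variable {L : Language.{u, u}} {K : AEC L} {ℓ θ : Cardinal.{u}}
  {κf α : Cardinal.{u} → Cardinal.{u}} {C : Type u} [L.Structure C]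

section

variable (h₀ : BasePt K ℓ κf α θ) (hK : K.IsLS ℓ)
  (hunb : ∀ ν, ν < κf ν ∧ K.CategoricalIn (κf ν)) (hst : Stab K ℓ α (H287.thr κf))
  (hCm : K.mem C) (hs : Sat K θ C) (hCc : #C = Order.succ θ)

include h₀ hK hunb hst hCm hs hCc

/-- A chart of a strong submodel, given by an isomorphism. -/
theorem exists_chart {τ : Cardinal.{u}} (hℓτ : ℓ ≤ τ) (hτ : τ < θ) {t : Tpl K ℓ}
    (E : EM t (SuccTy θ ⊕ₗ TailTy τ)) {P : Set C} (hP : P ∈ (pg h₀ hK hunb hst hCm hs hCc).S) :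
    ∃ (e : E.N ≃[L] C) (a : SuccTy θ), #(Iio a) = θ ∧
      e '' (hullL E (low (TailTy τ) (Iio a)) : Set E.N) = P := by
  have hθ := aleph0_le_pt h₀ hK
  have hℓθ : ℓ ≤ θ := h₀.pt.lt.le
  have hτ0 : ℵ₀ ≤ τ := hK.1.trans hℓτ
  have hF : #(TailTy τ) ≤ θ := (mk_tailTy hτ0).trans_le (Order.succ_le_of_lt hτ)
  have hsE : Sat K θ E.N := sat_em_low h₀.ab hK hℓθ (h₀.largeExt hK hunb _) t hℓθ hF E
  have hEc := card_em hθ hℓθ hτ0 (Order.succ_le_of_lt hτ) E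
  obtain ⟨D, hD, hDc, rfl⟩ := hP
  obtain ⟨a', -, ha'⟩ := exists_bound hθ (∅ : Set (SuccTy θ)) (by simp)
  obtain ⟨x, a, hx, hxD, ha⟩ := exists_std_init hθ hℓθ hF h₀.pt.cat E D hD hDc a'
  obtain ⟨e, he⟩ := x.exists_iso hK hℓθ E.mem hCm hsE hs hEc hCc
  refine ⟨e, a, ?_, ?_⟩
  · exact le_antisymm (mk_Iio_succTy a) (ha'.ge.trans (mk_le_mk_of_subset
      (Iio_subset_Iio ha.le)))
  · rw [IsStd.image hx e he, hxD]

/-- **Tameness over two independent strong submodels**, with uniform bounds: `H` depends only on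
`σ`. -/
theorem pg_tmL_two {P A B : Set C} (hP : P ∈ (pg h₀ hK hunb hst hCm hs hCc).S)
    (hA : A ∈ (pg h₀ hK hunb hst hCm hs hCc).S) (hB : B ∈ (pg h₀ hK hunb hst hCm hs hCc).S)
    (hPA : P ⊆ A) (hPB : P ⊆ B) (hI : (pg h₀ hK hunb hst hCm hs hCc).Ind P A B)
    {σ ρ : Cardinal.{u}} (hσ : σ < θ) (hρ : ρ < θ) :
    (pg h₀ hK hunb hst hCm hs hCc).TmL σ (tH (max ℓ σ)) ρ (A ∪ B) := by
  classical
  set M := pg h₀ hK hunb hst hCm hs hCc with hMdef
  have hθ : ℵ₀ ≤ θ := aleph0_le_pt h₀ hK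
  have hℓθ : ℓ ≤ θ := h₀.pt.lt.le
  have hR : M.Real := pg_real h₀ hK hunb hst hCm hs hCc
  have hU : M.Up := pg_up h₀ hK hunb hst hCm hs hCc
  have hM : M.Calc := pg_calc h₀ hK hunb hst hCm hs hCc
  have hH : tH (max ℓ σ) < θ := tH_lt h₀ hst hσ
  -- the levels
  obtain ⟨B₀, hB₀, hmap⟩ := hR.tmL_of_map (σ := σ) (H := tH (max ℓ σ)) (ρ := ρ) hσ hH hρ
  have hB₁ : max B₀ 1 < θ := max_lt hB₀ (one_lt_aleph0.trans_le hθ)
  obtain ⟨τ₁, hτ₁, hup⟩ := hU (max B₀ 1) hB₁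
  obtain ⟨τ₂, hτ₂, hsym⟩ := hU.exists_sym hM hτ₁
  let τ : Cardinal.{u} := max (max ℓ (tH (max ℓ σ) + (σ + σ))) (max τ₁ τ₂)
  have hτ : τ < θ := max_lt (max_lt h₀.pt.lt (add_lt_of_lt hθ hH (add_lt_of_lt hθ hσ hσ)))
    (max_lt hτ₁ hτ₂)
  have hℓτ : ℓ ≤ τ := (le_max_left _ _).trans (le_max_left _ _)
  have hHτ : tH (max ℓ σ) + (σ + σ) ≤ τ := (le_max_right _ _).trans (le_max_left _ _)
  have hτ₁τ : τ₁ ≤ τ := (le_max_left _ _).trans (le_max_right _ _)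
  have hτ₂τ : τ₂ ≤ τ := (le_max_right _ _).trans (le_max_right _ _)
  have hτ0 : ℵ₀ ≤ τ := hK.1.trans hℓτ
  have hF : #(TailTy τ) ≤ θ := (mk_tailTy hτ0).trans_le (Order.succ_le_of_lt hτ)
  obtain ⟨t⟩ := exists_tpl' hK hunb
  obtain ⟨E⟩ := exists_em t (SuccTy θ ⊕ₗ TailTy τ)
  have hsE : Sat K θ E.N := sat_em_low h₀.ab hK hℓθ (h₀.largeExt hK hunb _) t hℓθ hF E
  have hEc := card_em hθ hℓθ hτ0 (Order.succ_le_of_lt hτ) E
  intro Q hQ g hg
  have hQθ : #Q ≤ θ := hQ.trans hσ.le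
  have hQg : #(Q ∪ g '' Q : Set C) ≤ θ :=
    (mk_union_le _ _).trans (add_le_of_le hθ hQθ (mk_image_le.trans hQθ))
  -- the charts
  obtain ⟨e₀, a₀, ha₀, heP⟩ := exists_chart h₀ hK hunb hst hCm hs hCc hℓτ hτ E hP
  obtain ⟨DB, hDB, hDBc, hDB'⟩ := hB
  obtain ⟨DA, hDA, hDAc, hDA'⟩ := hA
  obtain ⟨gB, bB, hbB, -, hbBc, hgB, hBB, hIB⟩ := exists_std_free h₀ hK hunb hst hCm hs hCc hℓτ
    hτ E e₀ ha₀ DB hDB hDBc (by rw [heP, hDB']; exact hPB) (A ∪ (Q ∪ g '' Q))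
    ((mk_union_le _ _).trans (add_le_of_le hθ (by
      rw [← hDA']
      exact hDAc.le) hQg)) a₀
  have hB'c : #(gB '' (hullL E (low (TailTy τ) (Iio bB)) : Set E.N)) ≤ θ :=
    mk_image_le.trans (mk_hullL_low hθ hℓθ hF hbBc).le
  obtain ⟨gA, bA, hbA, -, hbAc, hgA, hAA, hIA⟩ := exists_std_free h₀ hK hunb hst hCm hs hCc hℓτ
    hτ E e₀ ha₀ DA hDA hDAc (by rw [heP, hDA']; exact hPA)
    (gB '' (hullL E (low (TailTy τ) (Iio bB)) : Set E.N) ∪ (Q ∪ g '' Q))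
    ((mk_union_le _ _).trans (add_le_of_le hθ hB'c hQg)) a₀
  have hA'c : #(gA '' (hullL E (low (TailTy τ) (Iio bA)) : Set E.N)) ≤ θ :=
    mk_image_le.trans (mk_hullL_low hθ hℓθ hF hbAc).le
  obtain ⟨s, V, hV, hVc, hs1, hs2⟩ := exists_shift_low hK hℓθ hℓθ hF E hsE hEc hbB.le hbBc bA
  rw [hDB'] at hBB hIB
  rw [hDA'] at hAA hIA
  -- the maps
  let uL : C ≃[L] C := e₀.comp gA.symm
  let vL : C ≃[L] C := (e₀.comp s).comp gB.symm
  let u : Equiv.Perm C := uL.toEquiv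
  let v : Equiv.Perm C := vL.toEquiv
  have hu : u ∈ M.G := mem_autG uL
  have hv : v ∈ M.G := mem_autG vL
  have huA : ∀ z, u (gA z) = e₀ z := by
    intro z
    change e₀ (gA.symm (gA z)) = e₀ z
    rw [Language.Equiv.symm_apply_apply]
  have hvB : ∀ z, v (gB z) = e₀ (s z) := by
    intro z
    change e₀ (s (gB.symm (gB z))) = e₀ (s z)
    rw [Language.Equiv.symm_apply_apply]
  have huP : ∀ x ∈ P, u x = x := by
    intro x hx
    rw [← heP] at hx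
    obtain ⟨z, hz, rfl⟩ := hx
    rw [← hgA z hz, huA, hgA z hz]
  have hvP : ∀ x ∈ P, v x = x := by
    intro x hx
    rw [← heP] at hx
    obtain ⟨z, hz, rfl⟩ := hx
    rw [← hgB z hz, hvB, hs1 z hz, hgB z hz]
  set A' : Set C := gA '' (hullL E (low (TailTy τ) (Iio bA)) : Set E.N) with hA'
  set B' : Set C := gB '' (hullL E (low (TailTy τ) (Iio bB)) : Set E.N) with hB'
  have huA' : u '' A' = e₀ '' (hullL E (low (TailTy τ) (Iio bA)) : Set E.N) := by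
    rw [hA', image_image]
    exact image_congr fun z _ => huA z
  have hvB' : v '' B' = e₀ '' (hullL E (low (TailTy τ) (Iio a₀ ∪ V)) : Set E.N) := by
    rw [hB', image_image, ← hs2, image_image]
    exact image_congr fun z _ => hvB z
  -- independence
  have hind1 : M.IndL τ₂ P A B' := (hIB.level hτ₂τ).trans (hI.indL hτ₂) (by
    rintro x (hx | hx)
    · exact Or.inl (hPB hx)
    · exact Or.inr (Or.inl hx))
  have hind2 : M.IndL τ₁ P B' A' := (hIA.level hτ₁τ).trans (hsym P hP A B' hind1) (by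
    rintro x (hx | hx)
    · exact Or.inl (hPA hx)
    · exact Or.inr (Or.inl hx))
  have hind3 : ∀ a ⊆ A', ∀ b ⊆ B', #a ≤ max B₀ 1 → #b ≤ max B₀ 1 → M.Ind P a b := fun a ha b hb hac hbc =>
    hM.sym hP (hup P hP b a hbc hac (hind2.mono hb ha))
  have hind4 : M.IndL τ P (u '' A') (v '' B') := by
    rw [huA', hvB', ← heP]
    refine indL_std h₀ hK hunb hst hCm hs hCc hℓτ hτ E e₀ hbA.le (W := Iio a₀ ∪ V) ?_
    rintro x (hx | hx) hxc
    · exact hx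
    · exact absurd hxc (not_lt.2 (hV hx))
  have hinter : A' ∩ B' ⊆ P := by
    rintro x ⟨hx1, hx2⟩
    have h1 : #({x} : Set C) ≤ max B₀ 1 := by
      rw [mk_singleton]
      exact le_max_right _ _
    exact (hind3 {x} (singleton_subset_iff.2 hx1) {x} (singleton_subset_iff.2 hx2) h1
      h1).inter_sub ⟨rfl, rfl⟩
  -- the common map
  let f : C → C := fun x => if x ∈ A' then u x else v x
  have hfA : ∀ x ∈ A', f x = u x := fun x hx => if_pos hx
  have hfB : ∀ x ∈ B', f x = v x := by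
    intro x hx
    by_cases h : x ∈ A'
    · rw [hfA x h, huP x (hinter ⟨h, hx⟩), hvP x (hinter ⟨h, hx⟩)]
    · exact if_neg h
  have hLE : M.LEL B₀ f (A' ∪ B') := by
    intro D hD hDc
    have hDA : #(D ∩ A' : Set C) ≤ B₀ := (mk_le_mk_of_subset inter_subset_left).trans hDc
    have hDB : #(D ∩ B' : Set C) ≤ B₀ := (mk_le_mk_of_subset inter_subset_left).trans hDc
    obtain ⟨k, hk, h1, h2⟩ := PG.Up.glue hM hP (hDA.trans_lt hB₀) (hDB.trans_lt hB₀)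
      (hind3 _ inter_subset_right _ inter_subset_right (hDA.trans (le_max_left _ _))
        (hDB.trans (le_max_left _ _))) hu hv huP hvP
      (hup P hP _ _ (mk_image_le.trans (hDA.trans (le_max_left _ _)))
        (mk_image_le.trans (hDB.trans (le_max_left _ _)))
        ((hind4.level hτ₁τ).mono (image_mono inter_subset_right)
          (image_mono inter_subset_right)))
    refine ⟨k, hk, fun x hx => ?_⟩
    rcases hD hx with h | h
    · rw [h1 x ⟨hx, h⟩, hfA x h]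
    · rw [h2 x ⟨hx, h⟩, hfB x h]
  -- the image is a union of standard submodels
  obtain ⟨b₂, hb₂, -⟩ := exists_bound hθ (insert bA V)
    (mk_insert_le.trans (add_le_of_le hθ hVc (one_le_aleph0.trans hθ)))
  let W : ULift.{u} Bool → Set (SuccTy θ ⊕ₗ TailTy τ) := fun i =>
    if i.down then low (TailTy τ) (Iio bA) else low (TailTy τ) (Iio a₀ ∪ V)
  have hT : M.TmL σ (tH (max ℓ σ)) ρ (f '' (A' ∪ B')) := by
    have h1 := tmL_std h₀ hK hunb hst hCm hs hCc E (I := SuccTy θ ⊕ₗ TailTy τ)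
      (le_mk_index θ (TailTy τ)) e₀ hσ W
      {toLex (Sum.inl a₀), toLex (Sum.inl bA), toLex (Sum.inl b₂)}
      ((lt_aleph0_iff_set_finite.2 (toFinite _)).le.trans (hK.1.trans (le_max_left _ _)))
      (mix_two hbA.le (hb₂ bA (mem_insert _ _)).le V hV fun x hx => hb₂ x (Or.inr hx)) hρ
    have h2 : f '' (A' ∪ B') = {c | ∃ i, c ∈ e₀ '' (hullL E (W i) : Set E.N)} := by
      have h3 : f '' A' = e₀ '' (hullL E (low (TailTy τ) (Iio bA)) : Set E.N) := by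
        rw [← huA']
        exact image_congr hfA
      have h4 : f '' B' = e₀ '' (hullL E (low (TailTy τ) (Iio a₀ ∪ V)) : Set E.N) := by
        rw [← hvB']
        exact image_congr hfB
      rw [image_union, h3, h4]
      ext c
      constructor
      · rintro (h | h)
        · exact ⟨⟨true⟩, h⟩
        · exact ⟨⟨false⟩, h⟩
      · rintro ⟨⟨_ | _⟩, h⟩
        · exact Or.inr h
        · exact Or.inl h
    rw [h2]
    exact h1
  -- conclusion
  have h5 : M.TmL σ (tH (max ℓ σ)) ρ (A' ∪ B') :=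
    hmap (A' ∪ B') f ((mk_union_le _ _).trans (add_le_of_le hθ hA'c hB'c)) hLE hT
  exact (h5.tmE hQ hg).of_refl (union_subset_union hAA hBB) (PG.IndL.refl_two hQ hHτ hIA hIB)

/-- **Tameness over two independent strong submodels.** -/
theorem pg_tm_two {P A B : Set C} (hP : P ∈ (pg h₀ hK hunb hst hCm hs hCc).S)
    (hA : A ∈ (pg h₀ hK hunb hst hCm hs hCc).S) (hB : B ∈ (pg h₀ hK hunb hst hCm hs hCc).S)
    (hPA : P ⊆ A) (hPB : P ⊆ B) (hI : (pg h₀ hK hunb hst hCm hs hCc).Ind P A B) :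
    (pg h₀ hK hunb hst hCm hs hCc).Tm (A ∪ B) :=
  PG.tm_of_tmL fun σ hσ => ⟨tH (max ℓ σ), tH_lt h₀ hst hσ, fun _ hρ =>
    pg_tmL_two h₀ hK hunb hst hCm hs hCc hP hA hB hPA hPB hI hσ hρ⟩

/-- Tameness over strong submodels, with uniform bounds. -/
theorem pg_tmL_one {A : Set C} (hA : A ∈ (pg h₀ hK hunb hst hCm hs hCc).S)
    {σ ρ : Cardinal.{u}} (hσ : σ < θ) (hρ : ρ < θ) :
    (pg h₀ hK hunb hst hCm hs hCc).TmL σ (tH (max ℓ σ)) ρ A := by
  have h1 : (pg h₀ hK hunb hst hCm hs hCc).Ind A A A := fun D _ _ E hE _ =>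
    ⟨1, one_mem _, fun _ _ => rfl, fun b hb => hE hb⟩
  have h2 := pg_tmL_two h₀ hK hunb hst hCm hs hCc hA hA hA Subset.rfl Subset.rfl h1 hσ hρ
  rwa [union_self] at h2

/-- The bound outside. -/
theorem pg_exists_tm_two {σ : Cardinal.{u}} (hσ : σ < θ) : ∃ H < θ, ∀ P A B : Set C,
    P ∈ (pg h₀ hK hunb hst hCm hs hCc).S → A ∈ (pg h₀ hK hunb hst hCm hs hCc).S →
    B ∈ (pg h₀ hK hunb hst hCm hs hCc).S → P ⊆ A → P ⊆ B →
    (pg h₀ hK hunb hst hCm hs hCc).Ind P A B → ∀ E : Set C, #E ≤ σ → ∀ g ∈ autG L C,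
      (∀ D ⊆ A ∪ B, #D ≤ H → ∃ h ∈ autG L C, (∀ a ∈ D, h a = a) ∧ ∀ e ∈ E, h e = g e) →
      ∀ D ⊆ A ∪ B, #D < θ → ∃ h ∈ autG L C, (∀ a ∈ D, h a = a) ∧ ∀ e ∈ E, h e = g e :=
  ⟨tH (max ℓ σ), tH_lt h₀ hst hσ, fun _ _ _ hP hA hB hPA hPB hI E hE g hg h D hD hDc =>
    pg_tmL_two h₀ hK hunb hst hCm hs hCc hP hA hB hPA hPB hI hσ hDc E hE g hg h D hD le_rfl⟩

end

end Vale.Agent.P307.R2.H541
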