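import Vale.Agent.P307.R2.H732.Tx
import Vale.Agent.P307.R2.H732.Tx2
import Vale.Agent.P307.R2.H581.Full
import Vale.Agent.P307.R2.H427.GenPg
import Vale.Agent.P307.R2.H806.RealPG
import Vale.Agent.P307.R2.H827.FreeM

/-!
Uniform tameness over the arbitrary independent families of strong submodels, in all dimensions.
-/

set_option linter.unusedSectionVars false

universe u v

open FirstOrder Cardinal Set

namespace Vale.Agent.P307.R2.H732

open Vale.Agent.P307 Vale.Agent.P307.H304 Vale.Agent.P307.R2.H287 Vale.Agent.P307.R2.H1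
  Vale.Agent.P307.R2.H806 Vale.Agent.P307.R2.H971 Vale.Agent.P307.R2.H804
  Language.Structure Language.Substructure
open Vale.Agent.P307.R2.H541 Vale.Agent.P307.R2.H541.PG Vale.Agent.P307.R2.H533
  Vale.Agent.P307.R2.H650 Vale.Agent.P307.R2.H83 Vale.Agent.P307.R2.H427
open Vale.Agent.P307.R2.H514 (tH)

open scoped Classical

section abs

variable {C : Type u} {ι : Type v} {M : PG C}

/-- Bounded reflection below a face implies full reflection. -/
theorem fu_of_tx {H : Cardinal.{u} → Cardinal.{u}} (hM : M.Calc) (hB : M.Big) (hU : M.Up)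
    (hH : ∀ σ < M.χ, H σ < M.χ) {k : ℕ} (hMd : ∀ j, 1 ≤ j → j ≤ k → Md M ι j)
    (hFP : ∃ s < M.χ, H581.FPr M s) {v : Finset ι} (hv : v.Nonempty) (hvk : v.card ≤ k + 1)
    (hT : TX M ι H v.card) : FU M v := by
  obtain ⟨s₀, h1, h2⟩ := hFP
  obtain ⟨τ, h3, h4⟩ := H581.exists_full_face hM hB hU h1 h2 hv (fun i hi =>
    gdi_of_md hM hB.ls i fun j hj hji => hMd j hj (by omega)) (hH s₀ h1)
    (fun A F _ hFs hA hR ρ hρ => hT A v F le_rfl hFs hA hR s₀ h1 ρ hρ)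
  exact ⟨τ, h3, fun A hA hR => h4 A hA fun x E hE hEc => hR x E hE hEc⟩

end abs

variable {L : Language.{u, u}} {K : AEC L} {ℓ θ Λ : Cardinal.{u}}
  {κf α : Cardinal.{u} → Cardinal.{u}} {C : Type u} [L.Structure C]

section

variable (h₀ : BasePt K ℓ κf α θ) (hK : K.IsLS ℓ)
  (hunb : ∀ ν, ν < κf ν ∧ K.CategoricalIn (κf ν)) (hst : Stab K ℓ α (H287.thr κf))
  (hCm : K.mem C) (hs : Sat K θ C) (hCc : #C = Order.succ θ)

/-- **Uniform tameness over arbitrary independent families, in all dimensions.** -/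
theorem pg_tx (hΛ : BasePt K ℓ κf α Λ) (hθΛ : θ < Λ) {ι : Type v} {k : ℕ}
    (hMd : ∀ j, 1 ≤ j → j ≤ k → Md (pg h₀ hK hunb hst hCm hs hCc) ι j)
    (hFP : ∃ s < (pg h₀ hK hunb hst hCm hs hCc).χ,
      H581.FPr (pg h₀ hK hunb hst hCm hs hCc) s) :
    ∀ m ≤ k + 2, TX (pg h₀ hK hunb hst hCm hs hCc) ι (fun σ => tH (max ℓ σ)) m := by
  have hM := pg_calc h₀ hK hunb hst hCm hs hCc
  have hB := pg_big h₀ hK hunb hst hCm hs hCc
  have hU := pg_up h₀ hK hunb hst hCm hs hCc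
  have hH : ∀ σ < (pg h₀ hK hunb hst hCm hs hCc).χ,
      tH (max ℓ σ) < (pg h₀ hK hunb hst hCm hs hCc).χ :=
    fun σ hσ => tH_lt h₀ hst hσ
  refine tx_all hM hB (pg_real h₀ hK hunb hst hCm hs hCc) hU
    (H827.pg_freeM h₀ hK hunb hst hCm hs hCc hΛ hθΛ) hH hMd
    (fun F _ σ hσ ρ hρ τ hτ => H427.pg_gen h₀ hK hunb hst hCm hs hCc F hσ hρ hτ)
    fun v hv hvk hT => fu_of_tx hM hB hU hH hMd hFP hv hvk hT

end

end Vale.Agent.P307.R2.H732
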