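import Vale.Agent.P307.R2.H732.TxPg
import Vale.Agent.P307.R2.H27.TmPg
import Vale.Agent.P307.R2.H301.Din.Rows

/-!
The row of the tameness over boundaries in the induction on the dimension.
-/

set_option linter.unusedSectionVars false

universe u

open FirstOrder Cardinal Set

namespace Vale.Agent.P307.R2.H732

open Vale.Agent.P307 Vale.Agent.P307.H304 Vale.Agent.P307.R2.H287 Vale.Agent.P307.R2.H1
  Vale.Agent.P307.R2.H806 Vale.Agent.P307.R2.H971 Vale.Agent.P307.R2.H804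
  Language.Structure Language.Substructure
open Vale.Agent.P307.R2.H541 Vale.Agent.P307.R2.H541.PG Vale.Agent.P307.R2.H533
  Vale.Agent.P307.R2.H650 Vale.Agent.P307.R2.H718
open Vale.Agent.P307.R2.H514 (tH)
open Vale.Agent.P307.R2.H301 (EvM TopJK MdK TmK)

open scoped Classical

section abs

variable {C : Type u} {M : PG C} {ℓ : Cardinal.{u}} {k : ℕ}

/-- Uniform tameness over the independent families with at most `m` directions. -/
def TXK (ℓ : Cardinal.{u}) (m : ℕ) (M : PG C) : Prop :=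
  ∀ ι : Type u, TX M ι (fun σ => tH (max ℓ σ)) m

/-- Uniform tameness over the boundaries of the extensions of the systems of dimension at most
`k` by one direction. -/
def TmLK (ℓ : Cardinal.{u}) (k : ℕ) (M : PG C) : Prop := ∀ (ι : Type u)
  (A : Finset ι → Set C) (S : Finset ι) (c : ι), S.card ≤ k → Ext1 M A S c →
    ∀ σ < M.χ, ∀ ρ < M.χ, M.TmL σ (tH (max ℓ σ)) ρ (ibd A (insert c S))

theorem TXK.mono {m m' : ℕ} (h : TXK ℓ m M) (hm : m' ≤ m) : TXK ℓ m' M :=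
  fun ι A s F hs => h ι A s F (hs.trans hm)

theorem TXK.tmLK (hM : M.Calc) (h : TXK ℓ (k + 1) M) : TmLK ℓ k M := by
  intro ι A S c hS hE σ hσ ρ hρ
  have h1 := h ι A (insert c S) (insert c S).ssubsets (by
    rw [Finset.card_insert_of_notMem hE.notMem]
    omega) Finset.Subset.rfl hE.fam (hE.ref hM) σ hσ ρ hρ
  rwa [iun_ssubsets] at h1

theorem TmLK.tmK (hH : ∀ σ < M.χ, tH (max ℓ σ) < M.χ) (h : TmLK ℓ k M) : TmK k M :=
  fun ι A S c _ hS hE => tm_of_tmL fun σ hσ =>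
    ⟨tH (max ℓ σ), hH σ hσ, fun ρ hρ => h ι A S c hS hE σ hσ ρ hρ⟩

end abs

variable {L : Language.{u, u}} {K : AEC L} {ℓ : Cardinal.{u}} {κf α : Cardinal.{u} → Cardinal.{u}}

/-- **Uniform tameness in dimension `k + 2`** from the tops up to the dimension `k`. -/
theorem evM_txk (hF : Frame K ℓ κf α) (hC : EvM K ℓ κf α fun _ M => Chn M)
    (hJ : EvM K ℓ κf α fun _ M => TopJK M) (k : ℕ)
    (hMd : EvM K ℓ κf α fun _ M => MdK k M) :
    EvM K ℓ κf α fun _ M => TXK ℓ (k + 2) M := by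
  obtain ⟨r, hr⟩ := (hC.and hJ).and hMd
  refine ⟨r, fun θ hθ h₀ hK hunb hst C _ hCm hs hCc ι => ?_⟩
  obtain ⟨⟨h1, h2⟩, h3⟩ := hr θ hθ h₀ hK hunb hst C hCm hs hCc
  obtain ⟨Λ, hθΛ, hΛ⟩ := hF.exists_gt θ
  exact pg_tx h₀ hK hunb hst hCm hs hCc hΛ hθΛ (fun j _ hjk => h3 ι j hjk)
    (H27.pg_fp h₀ hK hunb hst hCm hs hCc hΛ hθΛ h1
      (H827.pg_freeM h₀ hK hunb hst hCm hs hCc hΛ hθΛ) (h2.topJ h1)) (k + 2) le_rfl

/-- **The row** in the uniform form. -/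
theorem evM_tmLK (hF : Frame K ℓ κf α) (hC : EvM K ℓ κf α fun _ M => Chn M)
    (hJ : EvM K ℓ κf α fun _ M => TopJK M) (k : ℕ)
    (hMd : EvM K ℓ κf α fun _ M => MdK k M) :
    EvM K ℓ κf α fun _ M => TmLK ℓ (k + 1) M := by
  obtain ⟨r, hr⟩ := evM_txk hF hC hJ k hMd
  exact ⟨r, fun θ hθ h₀ hK hunb hst C _ hCm hs hCc =>
    (hr θ hθ h₀ hK hunb hst C hCm hs hCc).tmLK (pg_calc h₀ hK hunb hst hCm hs hCc)⟩

/-- **The row** of the tameness over boundaries. -/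
theorem evM_tmK (hF : Frame K ℓ κf α) (hC : EvM K ℓ κf α fun _ M => Chn M)
    (hJ : EvM K ℓ κf α fun _ M => TopJK M) (k : ℕ)
    (hMd : EvM K ℓ κf α fun _ M => MdK k M) :
    EvM K ℓ κf α fun _ M => TmK (k + 1) M := by
  obtain ⟨r, hr⟩ := evM_tmLK hF hC hJ k hMd
  exact ⟨r, fun θ hθ h₀ hK hunb hst C _ hCm hs hCc =>
    (hr θ hθ h₀ hK hunb hst C hCm hs hCc).tmK fun σ hσ => tH_lt h₀ hst hσ⟩

end Vale.Agent.P307.R2.H732
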