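import Vale.Agent.P307.R2.H732.TxRow
import Vale.Agent.P307.R2.H718.Ladder
import Vale.Agent.P307.R2.H806.TwoTr
import Vale.Agent.P307.R2.H913.TrPch
import Vale.Agent.P307.R2.H844.JrStep
import Vale.Agent.P307.R2.H301.Din.Eng

/-!
Types over the closed traces of independent families, compared in the whole saturated model.
-/

set_option linter.unusedSectionVars false

universe u v

open FirstOrder Cardinal Set

namespace Vale.Agent.P307.R2.H541.PG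

open Vale.Agent.P307.R2.H533

open scoped Classical

variable {ι : Type v} {C : Type u} {M : PG C} {D X E : Set C} {M' : PG D} {σ H ρ : Cardinal.{u}}

/-- Tameness at the lower level, for tuples of the lower level, from the lower geometry. -/
theorem Low.tmE_up (hL : M.Low D M') (hσ : σ < M'.χ) (hH : H < M'.χ) (hρ : ρ < M'.χ)
    (hT : M'.TmL σ H ρ (tr D X)) (hX : X ⊆ D) (hE : #E ≤ σ) (hED : E ⊆ D)
    {g : Equiv.Perm C} (hg : g ∈ M.G) (hgE : ∀ e ∈ E, g e ∈ D) : M.TmE H ρ X E g := by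
  intro hloc A hA hAρ
  have hval : ∀ Y ⊆ D, Subtype.val '' tr D Y = Y := fun Y hY => PG.image_tr hY
  have hcard : ∀ Y ⊆ D, #(tr D Y) = #Y := fun Y hY => by
    rw [← mk_val (tr D Y), hval Y hY]
  have hEc : #(tr D E) ≤ σ := by rwa [hcard E hED]
  obtain ⟨g', hg', h1⟩ := hL.dn (tr D E) (hEc.trans_lt hσ) g hg fun e he => hgE _ he
  have h2 : ∀ A' ⊆ tr D X, #A' ≤ H → ∃ h ∈ M'.G, (∀ a ∈ A', h a = a) ∧
      ∀ e ∈ tr D E, h e = g' e := by
    intro A' hA' hA'H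
    obtain ⟨h, hh, h3, h4⟩ := hloc (Subtype.val '' A') (by
      rintro _ ⟨a, ha, rfl⟩
      exact hA' ha) (by rwa [mk_val])
    obtain ⟨h', hh', h5⟩ := hL.dn (A' ∪ tr D E)
      ((mk_union_le _ _).trans_lt (add_lt_of_lt M'.hχ (hA'H.trans_lt hH) (hEc.trans_lt hσ))) h hh (by
        rintro x (hx | hx)
        · rw [h3 x (mem_image_of_mem _ hx)]
          exact x.2
        · rw [h4 x hx]
          exact hgE _ hx)
    refine ⟨h', hh', fun a ha => Subtype.ext ?_, fun e he => Subtype.ext ?_⟩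
    · rw [h5 a (Or.inl ha), h3 a (mem_image_of_mem _ ha)]
    · rw [h5 e (Or.inr he), h4 e he, h1 e he]
  obtain ⟨h, hh, h3, h4⟩ := hT (tr D E) hEc g' hg' h2 (tr D A) (tr_mono hA) (by
    rwa [hcard A (hA.trans hX)])
  obtain ⟨k, hk, h5⟩ := hL.up (tr D A ∪ tr D E)
    ((mk_union_le _ _).trans_lt (add_lt_of_lt M'.hχ (by
      rw [hcard A (hA.trans hX)]
      exact hAρ.trans_lt hρ) (hEc.trans_lt hσ))) h hh
  refine ⟨k, hk, fun a ha => ?_, fun e he => ?_⟩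
  · have h6 := h5 ⟨a, hX (hA ha)⟩ (Or.inl ha)
    rw [h3 ⟨a, hX (hA ha)⟩ ha] at h6
    exact h6
  · have h6 := h5 ⟨e, hED he⟩ (Or.inr he)
    rw [h4 ⟨e, hED he⟩ he, h1 ⟨e, hED he⟩ he] at h6
    exact h6

end Vale.Agent.P307.R2.H541.PG

namespace Vale.Agent.P307.R2.H732

open Vale.Agent.P307 Vale.Agent.P307.H304 Vale.Agent.P307.R2.H287 Vale.Agent.P307.R2.H1
  Vale.Agent.P307.R2.H806 Vale.Agent.P307.R2.H971 Vale.Agent.P307.R2.H804
  Language.Structure Language.Substructure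
open Vale.Agent.P307.R2.H541 Vale.Agent.P307.R2.H541.PG Vale.Agent.P307.R2.H533
  Vale.Agent.P307.R2.H718 Vale.Agent.P307.R2.H301
open Vale.Agent.P307.R2.H514 (tH)
open Vale.Agent.P307.R2.H68 (Clo exists_clo)

open scoped Classical

variable {L : Language.{u, u}} {K : AEC L} {ℓ θ τ : Cardinal.{u}}
  {κf α : Cardinal.{u} → Cardinal.{u}} {C : Type u} [L.Structure C]

section

variable (h₀ : BasePt K ℓ κf α θ) (hK : K.IsLS ℓ)
  (hunb : ∀ ν, ν < κf ν ∧ K.CategoricalIn (κf ν)) (hst : Stab K ℓ α (H287.thr κf))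
  (hCm : K.mem C) (hs : Sat K θ C) (hCc : #C = Order.succ θ)

include h₀ hK hunb hst hCm hs hCc

/-- **Types over the closed traces of an independent family**: for tuples `E` of size at most `σ`
of the whole model, the type over the pieces of size less than `τ` of a closed trace is determined
by the pieces of size `tH (max ℓ σ)`. -/
theorem pg_htb {ι : Type u} (hτ : BasePt K ℓ κf α τ) (hτθ : τ < θ) {m : ℕ}
    (hT : AllPG K ℓ κf α τ fun _ M => TXK ℓ m M) {A : Finset ι → Set C} {s : Finset ι}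
    {F : Finset (Finset ι)} (hs' : s.card ≤ m) (hFs : F ⊆ s.ssubsets)
    (hA : IFam (pg h₀ hK hunb hst hCm hs hCc) A F)
    (hR : IRef (pg h₀ hK hunb hst hCm hs hCc) A F) {H : Set C} (hHc : #H ≤ τ)
    (hS : ∀ t ∈ F, A t ∩ H ∈ Sm K τ C)
    (hJ : (pg h₀ hK hunb hst hCm hs hCc).JR τ A F H (iun A F ∩ H)) {σ ρ : Cardinal.{u}}
    (hσ : σ < τ) (hρ : ρ < τ) {E : Set C} (hE : #E ≤ σ) {g : Equiv.Perm C}
    (hg : g ∈ (pg h₀ hK hunb hst hCm hs hCc).G) :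
    (pg h₀ hK hunb hst hCm hs hCc).TmE (tH (max ℓ σ)) ρ (iun A F ∩ H) E g := by
  have hτ0 := aleph0_le_pt hτ hK
  obtain ⟨C', hC', hC'c, hC's, hY, hgY⟩ := exists_low' hτ hτθ (f := g) (Y := H ∪ E)
    ((mk_union_le _ _).trans (add_le_of_le hτ0 hHc (hE.trans hσ.le))) h₀ hK hunb hCm hCc
  have hL := pg_low h₀ hK hunb hst hCm hs hCc hτ hτθ hC' hC'c hC's
  have hHC' : H ⊆ (C' : Set C) := subset_union_left.trans hY
  have h1 : IFam (pgLow hK hunb hst hτ hC' hC'c hC's) (fun t => tr (C' : Set C) (A t ∩ H)) F :=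
    ⟨hA.down, fun t ht => tr_mem hK hunb hst hτ hC' hC'c hC's (hS t ht)
      (inter_subset_right.trans hHC'), fun t ht r hr =>
      tr_mono (inter_subset_inter_left H (hA.mono t ht r hr))⟩
  have h2 : IRef (pgLow hK hunb hst hτ hC' hC'c hC's) (fun t => tr (C' : Set C) (A t ∩ H)) F :=
    hL.iref_tr hA.down hR hJ (inter_subset_right.trans hHC')
  have h3 := hT hτ hK hunb hst C' (K.mem_of_le _ hC').1 hC's hC'c ι _ s F hs' hFs h1 h2 σ hσ ρ hρ
  rw [iun_tr] at h3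
  exact hL.tmE_up hσ (tH_lt hτ hst hσ) hρ h3 (inter_subset_right.trans hHC') hE
    (subset_union_right.trans hY) hg fun e he => hgY e (Or.inr he)

/-- **Uniform tameness over the closed traces**, for the tuples of the whole model. -/
theorem exists_clo_tmL {ι : Type u} (hτ : BasePt K ℓ κf α τ) (hτθ : τ < θ) {m : ℕ}
    (hT : AllPG K ℓ κf α τ fun _ M => TXK ℓ m M) {A : Finset ι → Set C} {s : Finset ι}
    {F : Finset (Finset ι)} (hs' : s.card ≤ m) (hFs : F ⊆ s.ssubsets)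
    (hA : IFam (pg h₀ hK hunb hst hCm hs hCc) A F)
    (hR : IRef (pg h₀ hK hunb hst hCm hs hCc) A F)
    (hJ : ∃ φ : Finset C → Set C, (∀ s, #(φ s) ≤ τ) ∧ ∀ H, Clo φ H → #H ≤ τ →
      (pg h₀ hK hunb hst hCm hs hCc).JR τ A F H (iun A F ∩ H)) :
    ∃ φ : Finset C → Set C, (∀ s, #(φ s) ≤ τ) ∧ ∀ H, Clo φ H → #H ≤ τ →
      ∀ σ < τ, ∀ ρ < τ,
        (pg h₀ hK hunb hst hCm hs hCc).TmL σ (tH (max ℓ σ)) ρ (iun A F ∩ H) := by
  have hτ0 := aleph0_le_pt hτ hK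
  obtain ⟨φ₁, h1, h2⟩ := H844.exists_clo_fin' F hτ0 (P := fun t H => A t ∩ H ∈ Sm K τ C)
    fun t ht => H913.exists_clo_sm h₀ hK hunb hst hCm hs hCc hτ hτθ (hA.mem t ht)
  obtain ⟨φ₂, h3, h4⟩ := hJ
  refine ⟨fun s => φ₁ s ∪ φ₂ s, fun s => (mk_union_le _ _).trans (add_le_of_le hτ0 (h1 s) (h3 s)),
    fun H hH hHc σ hσ ρ hρ E hE g hg => ?_⟩
  exact pg_htb h₀ hK hunb hst hCm hs hCc hτ hτθ hT hs' hFs hA hR hHc
    (h2 H (hH.mono fun s => subset_union_left) hHc) (h4 H (hH.mono fun s => subset_union_right) hHc)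
    hσ hρ hE hg

/-- The same for the boundaries of the extensions of systems by one direction. -/
theorem exists_clo_tmL_ext {ι : Type u} (hτ : BasePt K ℓ κf α τ) (hτθ : τ < θ) {k : ℕ}
    (hT : AllPG K ℓ κf α τ fun _ M => TXK ℓ (k + 1) M) {A : Finset ι → Set C}
    {S : Finset ι} {c : ι} (hS : S.card ≤ k) (hE : Ext1 (pg h₀ hK hunb hst hCm hs hCc) A S c)
    (hJ : JRb (pg h₀ hK hunb hst hCm hs hCc) τ A S c) :
    ∃ φ : Finset C → Set C, (∀ s, #(φ s) ≤ τ) ∧ ∀ H, Clo φ H → #H ≤ τ →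
      ∀ σ < τ, ∀ ρ < τ, (pg h₀ hK hunb hst hCm hs hCc).TmL σ (tH (max ℓ σ)) ρ
        (ibd A (insert c S) ∩ H) := by
  obtain ⟨φ, h1, h2⟩ := exists_clo_tmL h₀ hK hunb hst hCm hs hCc hτ hτθ hT
    (s := insert c S) (F := (insert c S).ssubsets) (by
      rw [Finset.card_insert_of_notMem hE.notMem]
      omega) Finset.Subset.rfl hE.fam (hE.ref (pg_calc h₀ hK hunb hst hCm hs hCc)) (by
      rw [iun_ssubsets]
      exact hJ)
  rw [iun_ssubsets] at h2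
  exact ⟨φ, h1, h2⟩

/-- The form of the shrinking lemma: the types of small tuples over small subsets `B` of a closed
trace. -/
theorem htb_of_tmL {σ μ : Cardinal.{u}} {B' : Set C}
    (hT : ∀ ρ < τ, (pg h₀ hK hunb hst hCm hs hCc).TmL σ (tH (max ℓ σ)) ρ B')
    (hμ : tH (max ℓ σ) ≤ μ) {e B : Set C} (he : #e ≤ σ) (hB : B ⊆ B') (hBc : #B < τ) :
    ∀ g ∈ (pg h₀ hK hunb hst hCm hs hCc).G,
      (∀ y ⊆ B', #y ≤ μ → ∃ h ∈ (pg h₀ hK hunb hst hCm hs hCc).G, (∀ x ∈ y, h x = x) ∧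
        ∀ x ∈ e, h x = g x) →
      ∃ h ∈ (pg h₀ hK hunb hst hCm hs hCc).G, (∀ x ∈ B, h x = x) ∧ ∀ x ∈ e, h x = g x :=
  fun g hg hloc => hT #B hBc e he g hg (fun A hA hAc => hloc A hA (hAc.trans hμ)) B hB le_rfl

/-- The types over the whole boundary. -/
theorem htx_of_tx {ι : Type u} {m : ℕ} {M : PG C} (hT : TXK ℓ m M) {A : Finset ι → Set C}
    {s : Finset ι} {F : Finset (Finset ι)} (hs' : s.card ≤ m) (hFs : F ⊆ s.ssubsets)
    (hA : IFam M A F) (hR : IRef M A F) {σ μ : Cardinal.{u}} (hσ : σ < M.χ)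
    (hμ : tH (max ℓ σ) ≤ μ) {e : Set C} (he : #e ≤ σ) :
    ∀ g ∈ M.G, (∀ y ⊆ iun A F, #y ≤ μ → ∃ h ∈ M.G, (∀ x ∈ y, h x = x) ∧ ∀ x ∈ e, h x = g x) →
      ∀ Z ⊆ iun A F, #Z < M.χ → ∃ h ∈ M.G, (∀ x ∈ Z, h x = x) ∧ ∀ x ∈ e, h x = g x :=
  fun g hg hloc Z hZ hZc => hT ι A s F hs' hFs hA hR σ hσ #Z hZc e he g hg
    (fun A' hA' hAc => hloc A' hA' (hAc.trans hμ)) Z hZ le_rfl

end

end Vale.Agent.P307.R2.H732
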