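import Vale.Agent.P307.R2.H83.TinyB
import Vale.Agent.P307.R2.H914.BrT
import Vale.Agent.P307.R2.H27.TrRow
import Vale.Agent.P307.R2.H732.Tb

/-!
The row of the isolating sets of small size.
-/

set_option linter.unusedSectionVars false

universe u

open FirstOrder Cardinal Set

namespace Vale.Agent.P307.R2.H732

open Vale.Agent.P307 Vale.Agent.P307.H304 Vale.Agent.P307.R2.H287 Vale.Agent.P307.R2.H1
  Vale.Agent.P307.R2.H806 Vale.Agent.P307.R2.H971 Vale.Agent.P307.R2.H541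
  Vale.Agent.P307.R2.H541.PG Vale.Agent.P307.R2.H533 Vale.Agent.P307.R2.H650
  Vale.Agent.P307.R2.H578 Vale.Agent.P307.R2.H718 Vale.Agent.P307.R2.H319
  Vale.Agent.P307.R2.H480 Vale.Agent.P307.R2.H914 Vale.Agent.P307.R2.H27
  Language.Structure Language.Substructure
open Vale.Agent.P307.R2.H301 (EvM EvL MdK ShEK JRE JRb KnW Dens TrPE TrJE TrE RowsX JR2K evM_free
  evM_chn shEK_zero)
open Vale.Agent.P307.R2.H514 (tH)

open scoped Classical

variable {L : Language.{u, u}} {K : AEC L} {ℓ : Cardinal.{u}} {κf α : Cardinal.{u} → Cardinal.{u}}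

/-- **The row** of the isolating sets of small size. -/
theorem evL_tinyE {k : ℕ} (hFr : EvM K ℓ κf α fun _ M => FreeM M)
    (hMd : EvM K ℓ κf α fun _ M => MdK k M) (hT : EvM K ℓ κf α fun _ M => TXK ℓ (k + 2) M)
    (hFU : EvM K ℓ κf α fun _ M => ∃ σ₀ < M.χ, FUn.{u, u} M σ₀ (k + 1))
    (hJ : EvL K ℓ κf α fun _ M τ => JRE (k + 1) M τ) :
    EvL K ℓ κf α fun _ M τ => TinyE (k + 1) M τ := by
  obtain ⟨r₁, h1⟩ := (hFr.and hFU).and (hMd.and hT)
  obtain ⟨r₂, h2⟩ := hJ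
  refine ⟨max r₁ r₂ + 1, fun θ hθ h₀ hK hunb hst C _ hCm hs hCc => ?_⟩
  obtain ⟨⟨h3, σ₀, h9, h10⟩, h5, h6⟩ := h1 θ (hθ.mono ((le_max_left _ _).trans (Nat.le_succ _)))
    h₀ hK hunb hst C hCm hs hCc
  obtain ⟨τ₀, h7, h8⟩ := h2 θ (hθ.mono ((le_max_right _ _).trans (Nat.le_succ _)))
    h₀ hK hunb hst C hCm hs hCc
  refine ⟨ℓ, h₀.pt.lt, fun τ _ hτθ hτ => ?_⟩
  intro ι A S c hS0 hS hE
  have hM := pg_calc h₀ hK hunb hst hCm hs hCc
  have hc : (insert c S).card ≤ k + 2 := by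
    rw [Finset.card_insert_of_notMem hE.notMem]
    omega
  have hcard : ∀ v ∈ (insert c S).ssubsets, v.card < (insert c S).card := fun v hv =>
    Finset.card_lt_card (Finset.mem_ssubsets.1 hv)
  refine H83.pg_tinyAt_of_brute h₀ hK hunb hst hCm hs hCc hτ.base hτθ h3 (fun j _ hj => h5 ι j (by omega))
    (fun w hw _ A' hA' hR' σ hσ ρ hρ => ?_) h9 (fun w hw hw0 A' hA' hR' =>
      h10 ι w hw0 (by have := hcard w hw; omega) A' hA' hR') hE.fam (hE.ref hM)
    (fun σ hσ ρ hρ => ?_) (fun σ hσ => ?_) fun ρ h16 h17 => by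
      obtain ⟨Λ, h18, h19⟩ := H914.exists_brT.{u, u} h₀ hK hunb hst hCm hs hCc hτ.base hτθ.le
        h16 h17
      exact ⟨Λ, h18, fun A F e he => h19 A F e he⟩
  · have h12 := h6 ι A' w w.ssubsets (by have := hcard w hw; omega) Finset.Subset.rfl hA' hR'
      σ hσ ρ hρ
    rwa [iun_ssubsets] at h12
  · have h12 := h6 ι A (insert c S) (insert c S).ssubsets hc Finset.Subset.rfl hE.fam
      (hE.ref hM) σ hσ ρ hρ
    rwa [iun_ssubsets] at h12
  · obtain ⟨τ₂, h13, h14, h15⟩ := hθ.exists_btw (max_lt hσ h7)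
    refine ⟨τ₂, (le_max_left _ _).trans_lt h13, h14, ?_⟩
    exact exists_clo_tmL_ext h₀ hK hunb hst hCm hs hCc h15.base h14 (k := k + 1)
      (fun h₀ hK hunb hst C _ hCm hs hCc => (h1 τ₂ (h15.mono (le_max_left _ _)) h₀ hK hunb hst C
        hCm hs hCc).2.2) hS hE (h8 τ₂ ((le_max_right _ _).trans h13.le) h14
          (h15.mono (le_max_right _ _)) ι A S c hS0 hS hE)

end Vale.Agent.P307.R2.H732
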