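import Vale.Agent.P307.R2.H732.TinyRow
import Vale.Agent.P307.R2.H27.TrRow
import Vale.Agent.P307.R2.H844.TrIsoPg

/-!
The open rows, and the question.
-/

universe u
open FirstOrder Cardinal Set
namespace Vale.Agent.P307.R2.H732
open Vale.Agent.P307 Vale.Agent.P307.R2.H301 Vale.Agent.P307.R2.H718

variable {L : Language.{u, u}} {K : AEC L} {ℓ : Cardinal.{u}} {κf α : Cardinal.{u} → Cardinal.{u}}

/-- **The open rows** of the induction on the dimension. -/
theorem rowsX (hF : Frame K ℓ κf α) : H301.RowsX K ℓ κf α :=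
  H27.rowsX_of_tiny hF (EvL.of_all (r := 0) fun _ _ hτθ _ hτ h₀ hK hunb hst _ _ hCm hs hCc =>
    H844.pg_trIsoAt h₀ hK hunb hst hCm hs hCc hτ.base hτθ.le) fun _ => evL_tinyE

/-- **The question.** -/
theorem q1 (l : Cardinal.{u}) :
    ∃ μ : Cardinal.{u}, l ≤ μ ∧ ∀ (L : Language.{u, u}) (K : AEC L), K.LS ≤ l →
      ∀ κ, μ ≤ κ → K.CategoricalIn κ → ∀ κ', μ ≤ κ' → K.CategoricalIn κ' :=
  q1_of_rowsX (fun _ _ _ _ _ hF => rowsX hF) l

end Vale.Agent.P307.R2.H732
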