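import Vale.Agent.P307.R2.H478.Shr4

/-!
Size reduction of isolating sets, from sequences in the trace which have limits in the set: the
sizes of the tuples and of the pieces are different.
-/

universe u

open Set Cardinal Function

namespace Vale.Agent.P307.R2.H732

open H541 H541.PG H478

variable {C : Type u} {M : PG C} {X B B' D T₁ e : Set C} {μ μ' τ : Cardinal.{u}}

/-- **Shrinking isolating sets.** The tuple `(g e, x₀)` has a copy `(v, w)` over each piece of `T₁`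
of size at most `τ`, which is reflected uniformly into a small subset of `T₁` over the
pieces of `B' ∪ D` of size at most `μ`; and the small pieces `x₀` of `X` have copies in `X` which
have over the small pieces of `B'` the type which a sequence in `D` converging to `x₀` has. -/
theorem isol_shrink₅ (hDT : D ⊆ T₁) (heT : e ⊆ T₁) (he : #e ≤ τ) (hτ₀ : ℵ₀ ≤ τ) (hμ₀ : ℵ₀ ≤ μ')
    (hμτ : μ' ≤ τ) (hμ : μ < M.χ)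
    (hrefl : ∀ y ⊆ B', #y ≤ μ' → ∀ q ⊆ T₁, #q ≤ τ →
      ∃ t ∈ M.G, (∀ x ∈ q, t x = x) ∧ ∀ x ∈ y, t x ∈ D)
    (hfree : ∀ g ∈ M.G, (∀ x ∈ D, g x = x) → ∀ x₀ ⊆ X, #x₀ ≤ μ → ∃ v w : C → C,
      (∀ p ⊆ T₁, #p ≤ τ → ∃ k ∈ M.G, (∀ x ∈ p, k x = x) ∧ (∀ x ∈ e, k (g x) = v x) ∧
        ∀ x ∈ x₀, k x = w x) ∧
      ∃ q₀ ⊆ T₁, #q₀ ≤ τ ∧ ∀ q ⊆ B' ∪ D, #q ≤ μ' →
        ∃ s ∈ M.G, (∀ x ∈ q, s x = x) ∧ (∀ x ∈ e, s (v x) ∈ q₀) ∧ ∀ x ∈ x₀, s (w x) ∈ q₀)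
    (hlim : ∀ x₀ ⊆ X, #x₀ ≤ μ → ∃ x' : C → C, (∀ x ∈ x₀, x' x ∈ X) ∧ ∃ q₁ ⊆ D, #q₁ ≤ τ ∧
      ∀ y₁ ⊆ B', #y₁ ≤ μ' → ∀ y₂ ⊆ D, #y₂ ≤ μ' → ∃ s₁ ∈ M.G, ∃ s₂ ∈ M.G, (∀ y ∈ y₁, s₁ y = y) ∧
        (∀ y ∈ y₂, s₂ y = y) ∧ ∀ x ∈ x₀, s₁ (x' x) = s₂ x ∧ s₂ x ∈ q₁)
    (hTB : ∀ g ∈ M.G, (∀ y ⊆ B', #y ≤ μ' → ∃ h ∈ M.G, (∀ x ∈ y, h x = x) ∧ ∀ x ∈ e, h x = g x) →
      ∃ h ∈ M.G, (∀ x ∈ B, h x = x) ∧ ∀ x ∈ e, h x = g x)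
    (hTB' : ∀ x₀ ⊆ X, #x₀ ≤ μ → ∀ g ∈ M.G, (∀ y ⊆ B', #y ≤ μ' →
      ∃ h ∈ M.G, (∀ x ∈ y, h x = x) ∧ ∀ x ∈ x₀, h x = g x) →
      ∃ h ∈ M.G, (∀ x ∈ B, h x = x) ∧ ∀ x ∈ x₀, h x = g x)
    (hTX : ∀ g ∈ M.G, (∀ y ⊆ X, #y ≤ μ → ∃ h ∈ M.G, (∀ x ∈ y, h x = x) ∧ ∀ x ∈ e, h x = g x) →
      ∀ A ⊆ X, #A < M.χ → ∃ h ∈ M.G, (∀ x ∈ A, h x = x) ∧ ∀ x ∈ e, h x = g x)
    (hB : M.Isol B X e) : M.Isol D X e := by
  intro g hg hgD A hA hAc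
  refine hTX g hg (fun x₀ hx₀ hx₀c => ?_) A hA hAc
  obtain ⟨v, w, hvw, q₀, hq₀, hq₀c, hs⟩ := hfree g hg hgD x₀ hx₀ hx₀c
  obtain ⟨k, hk, hke, hkv, hkw⟩ := hvw e heT he
  -- the free copy has the same type as `e` over `B`
  obtain ⟨h₁, hh₁, h₁B, h₁e⟩ := hTB (k * g) (M.G.mul_mem hk hg) fun y hy hyc => by
    obtain ⟨t, ht, hte, htD, h, hh, hhy, hhe⟩ := exists_conj_of_refl (ι := e) hτ₀ hμ₀ hrefl
      (fun i => v i) (fun i => g i) e hq₀ hq₀c (fun q hq hqc => by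
        obtain ⟨s, hsG, hsq, hsv, -⟩ := hs q hq hqc
        exact ⟨s, hsG, hsq, fun i => hsv i i.2⟩) (fun p hp hpc => by
        obtain ⟨k', hk', hk'p, hk'v, -⟩ := hvw p (hp.trans hDT) (hpc.trans hμτ)
        exact ⟨k', hk', hk'p, fun i => hk'v i i.2⟩) heT he hy hyc
    refine ⟨h⁻¹ * g * t, M.G.mul_mem (M.G.mul_mem (M.G.inv_mem hh) hg) ht, fun x hx => ?_,
      fun x hx => ?_⟩
    · rw [Equiv.Perm.mul_apply, Equiv.Perm.mul_apply, hgD _ (htD x hx), ← hhy x hx, inv_ap]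
    · rw [Equiv.Perm.mul_apply, Equiv.Perm.mul_apply, hte x hx, Equiv.Perm.mul_apply, hkv x hx,
        ← hhe ⟨x, hx⟩, inv_ap]
  -- the free copy of `x₀` has over `B` the type of a piece of `X`
  obtain ⟨x', hx'X, q₁, hq₁, hq₁c, hq⟩ := hlim x₀ hx₀ hx₀c
  obtain ⟨l, hl, hlB, hlX⟩ : ∃ l ∈ M.G, (∀ x ∈ B, l x = x) ∧ ∀ x ∈ x₀, l (w x) ∈ X := by
    obtain ⟨s₁, hs₁, s₂, hs₂, -, -, hs₁₂⟩ := hq ∅ (empty_subset _) (by simp) ∅ (empty_subset _) (by simp)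
    -- `k * (s₂⁻¹ * s₁)` maps `x'` to `w`
    have h0 : ∀ x ∈ x₀, (k * (s₂⁻¹ * s₁)) (x' x) = w x := fun x hx => by
      rw [Equiv.Perm.mul_apply, Equiv.Perm.mul_apply, (hs₁₂ x hx).1, inv_ap, hkw x hx]
    obtain ⟨h, hh, hhB, hhx⟩ := hTB' (x' '' x₀) (by
      rintro _ ⟨x, hx, rfl⟩
      exact hx'X x hx) (mk_image_le.trans hx₀c) (k * (s₂⁻¹ * s₁))
      (M.G.mul_mem hk (M.G.mul_mem (M.G.inv_mem hs₂) hs₁)) fun y hy hyc => by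
      obtain ⟨t, ht, htb, htD, h, hh, hhy, hhw⟩ := exists_conj_of_refl (ι := x₀) hτ₀ hμ₀ hrefl
        (fun i => w i) (fun i => i) q₁ hq₀ hq₀c (fun q hq hqc => by
          obtain ⟨s, hsG, hsq, -, hsw⟩ := hs q hq hqc
          exact ⟨s, hsG, hsq, fun i => hsw i i.2⟩) (fun p hp hpc => by
          obtain ⟨k', hk', hk'p, -, hk'w⟩ := hvw p (hp.trans hDT) (hpc.trans hμτ)
          exact ⟨k', hk', hk'p, fun i => hk'w i i.2⟩) (hq₁.trans hDT) hq₁c hy hyc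
      obtain ⟨r₁, hr₁, r₂, hr₂, hr₁y, hr₂y, hr⟩ := hq y hy hyc (t '' y) (by
        rintro _ ⟨x, hx, rfl⟩
        exact htD x hx) (mk_image_le.trans hyc)
      refine ⟨h⁻¹ * (r₂⁻¹ * t * r₁), M.G.mul_mem (M.G.inv_mem hh) (M.G.mul_mem (M.G.mul_mem
        (M.G.inv_mem hr₂) ht) hr₁), fun x hx => ?_, ?_⟩
      · rw [Equiv.Perm.mul_apply, Equiv.Perm.mul_apply, Equiv.Perm.mul_apply, hr₁y x hx,
          fix_inv (hr₂y (t x) (mem_image_of_mem _ hx)), ← hhy x hx, inv_ap]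
      · rintro _ ⟨x, hx, rfl⟩
        rw [h0 x hx, Equiv.Perm.mul_apply, Equiv.Perm.mul_apply, Equiv.Perm.mul_apply,
          (hr x hx).1, htb _ (hr x hx).2, inv_ap, Equiv.Perm.inv_eq_iff_eq]
        exact (hhw ⟨x, hx⟩).symm
    refine ⟨h⁻¹, M.G.inv_mem hh, fun x hx => fix_inv (hhB x hx), fun x hx => ?_⟩
    rw [← h0 x hx, ← hhx _ (mem_image_of_mem x' hx), inv_ap]
    exact hx'X x hx
  have hlk : ((l * k : Equiv.Perm C) '' x₀) ⊆ X := by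
    rintro _ ⟨x, hx, rfl⟩
    rw [Equiv.Perm.mul_apply, hkw x hx]
    exact hlX x hx
  have hlkc : #((l * k : Equiv.Perm C) '' x₀ : Set C) < M.χ := mk_image_le.trans_lt (hx₀c.trans_lt hμ)
  -- the free copy of `x₀` is reflected into `X`
  obtain ⟨h₂, hh₂, h₂A, h₂e⟩ := hB (l * h₁) (M.G.mul_mem hl hh₁) (fun x hx => by
    rw [Equiv.Perm.mul_apply, h₁B x hx, hlB x hx]) _ hlk hlkc
  obtain ⟨h₃, hh₃, h₃A, h₃e⟩ := hB l hl hlB _ hlk hlkc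
  refine ⟨(l * k)⁻¹ * (h₂ * h₃⁻¹) * (l * k), M.G.mul_mem (M.G.mul_mem
    (M.G.inv_mem (M.G.mul_mem hl hk)) (M.G.mul_mem hh₂ (M.G.inv_mem hh₃))) (M.G.mul_mem hl hk),
    fun x hx => ?_, fun x hx => ?_⟩
  · have h4 := h₂A _ (mem_image_of_mem (l * k : Equiv.Perm C) hx)
    have h5 := fix_inv (h₃A _ (mem_image_of_mem (l * k : Equiv.Perm C) hx))
    simp only [Equiv.Perm.mul_apply] at h4 h5 ⊢
    rw [h5, h4, mul_inv_rev]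
    simp only [Equiv.Perm.mul_apply]
    rw [inv_ap, inv_ap]
  · simp only [Equiv.Perm.mul_apply, mul_inv_rev]
    rw [hke x hx, ← h₃e x hx, inv_ap, h₂e x hx, Equiv.Perm.mul_apply, h₁e x hx,
      Equiv.Perm.mul_apply, inv_ap, inv_ap]

end Vale.Agent.P307.R2.H732
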