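import Vale.Agent.P307.R2.H732.Shr5
import Vale.Agent.P307.R2.H478.ShrL

/-!
Size reduction of isolating sets from sequences in the trace which have limits in the set: the
sizes of the tuples and of the pieces are different.
-/

set_option linter.unusedSectionVars false

universe u v w

open FirstOrder Cardinal Set

namespace Vale.Agent.P307.R2.H732

open Vale.Agent.P307 Vale.Agent.P307.H304 Vale.Agent.P307.R2.H287 Vale.Agent.P307.R2.H1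
  Vale.Agent.P307.R2.H971 Vale.Agent.P307.R2.H804 Vale.Agent.P307.R2.H650
  Vale.Agent.P307.R2.H541 Vale.Agent.P307.R2.H478 Language.Structure Language.Substructure Function

variable {L : Language.{u, u}} {K : AEC L} {ℓ θ τ τ₁ τ₂ μ ν ρ μ₀ μ₁ : Cardinal.{u}}
  {κf α : Cardinal.{u} → Cardinal.{u}} {C : Type u} [L.Structure C]

section

variable (h₀ : BasePt K ℓ κf α θ) (hK : K.IsLS ℓ)
  (hunb : ∀ ν, ν < κf ν ∧ K.CategoricalIn (κf ν)) (hst : Stab K ℓ α (H287.thr κf))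
  (hCm : K.mem C) (hs : Sat K θ C) (hCc : #C = Order.succ θ)

include h₀ hK hunb hst hCm hs hCc

/-- **Shrinking isolating sets.** `T ≤ N` are strong submodels of sizes `τ₁ < θ` and `θ`,
`e ⊆ T`, `D ⊆ T`, and the set `B` isolates the type of `e` over `X`. If the small pieces of `X` are
limits over `D` of sequences in `D`, which have limits in `X` over `B'`, and the small pieces of
`B'` are reflected into `D` over the small pieces of `T`, then `D` isolates the type of `e` over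
`X`. -/
theorem pg_isol_shrinkM (hτ₁ : BasePt K ℓ κf α τ₁) (hτ₁θ : τ₁ < θ)
    (hl : Lvl ℓ κf α ν μ ρ τ₁) (hα : α ν ≤ μ)
    {N T : L.Substructure C} (hN : K.le N) (hNc : #N = θ) (hT : K.le T) (hTc : #T = τ₁)
    (hTN : T ≤ N) {X B B' D e : Set C} (hDT : D ⊆ T) (heT : e ⊆ T) (hB'N : B' ⊆ N)
    (hμ₁ : ℵ₀ ≤ μ₁) (heμ : #e ≤ μ₀) (hμμ : μ₀ ≤ μ₁) (hμν : μ₁ ≤ ν)
    (hlim : ∀ x₀ ⊆ X, #x₀ ≤ μ₀ → ∃ (Ξ : Type u) (_ : LinearOrder Ξ) (_ : Nonempty Ξ)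
      (b : Ξ → x₀ → C) (x' : x₀ → C), #Ξ ≤ ρ ∧ (∀ ξ i, b ξ i ∈ D) ∧ (∀ i, x' i ∈ X) ∧
      Conv L μ b (fun i => (i : C)) D ∧ Conv L μ b x' B')
    (hrefl : ∀ y ⊆ B', #y ≤ μ₁ → ∀ q ⊆ (T : Set C), #q ≤ ρ →
      ∃ t ∈ autG L C, (∀ x ∈ q, t x = x) ∧ ∀ x ∈ y, t x ∈ D)
    (hTB : ∀ E : Set C, #E ≤ μ₀ → ∀ g ∈ autG L C, (∀ y ⊆ B', #y ≤ μ₁ →
      ∃ h ∈ autG L C, (∀ x ∈ y, h x = x) ∧ ∀ x ∈ E, h x = g x) →
      ∃ h ∈ autG L C, (∀ x ∈ B, h x = x) ∧ ∀ x ∈ E, h x = g x)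
    (hTX : ∀ g ∈ autG L C, (∀ y ⊆ X, #y ≤ μ₀ →
      ∃ h ∈ autG L C, (∀ x ∈ y, h x = x) ∧ ∀ x ∈ e, h x = g x) →
      ∀ A ⊆ X, #A < θ → ∃ h ∈ autG L C, (∀ x ∈ A, h x = x) ∧ ∀ x ∈ e, h x = g x)
    (hB : (pg h₀ hK hunb hst hCm hs hCc).Isol B X e) :
    (pg h₀ hK hunb hst hCm hs hCc).Isol D X e := by
  classical
  have hμ := hl.hμ hK
  have hν : ℵ₀ ≤ ν := hK.1.trans hl.hℓ
  have hνρ : ν ≤ ρ := hl.νμ.trans (hl.μρ hunb)
  have hρτ := hl.lt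
  have heν : #e ≤ ν := heμ.trans (hμμ.trans hμν)
  refine isol_shrink₅ (M := pg h₀ hK hunb hst hCm hs hCc) (T₁ := (T : Set C)) (B := B) (B' := B')
    (μ := μ₀) (μ' := μ₁) (τ := ρ) hDT heT (heν.trans hνρ) (hν.trans hνρ) hμ₁ (hμν.trans hνρ)
    (((hμμ.trans hμν).trans hνρ).trans_lt (hρτ.trans hτ₁θ)) hrefl ?_ ?_ (hTB e heμ)
    (fun x₀ _ hx₀c => hTB x₀ hx₀c) hTX hB
  · intro g hg hgD x₀ hx₀ hx₀c
    obtain ⟨z, h1, q₀, hq₀, hq₀c, h2⟩ := exists_free_copyN h₀ hK hunb hst hCm hs hCc hτ₁ hτ₁θ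
      hl hα hN hNc hT hTc hTN (ι := e ⊕ x₀) (mk_sum_le' hν heν (hx₀c.trans (hμμ.trans hμν)))
      (Sum.elim (fun a : e => g a) fun a : x₀ => (a : C))
    refine ⟨fun x => if hx : x ∈ e then z (Sum.inl ⟨x, hx⟩) else x,
      fun x => if hx : x ∈ x₀ then z (Sum.inr ⟨x, hx⟩) else x, ?_, q₀, hq₀, hq₀c, ?_⟩
    · intro p hp hpc
      obtain ⟨k, hk, hk1, hk2⟩ := h1 p hp (hpc.trans_lt hρτ)
      refine ⟨k, hk, hk1, fun x hx => ?_, fun x hx => ?_⟩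
      · simp only [dif_pos hx]
        exact hk2 (Sum.inl ⟨x, hx⟩)
      · simp only [dif_pos hx]
        exact hk2 (Sum.inr ⟨x, hx⟩)
    · intro q hq hqc
      obtain ⟨s, hs1, hs2, hs3⟩ := h2 q (hq.trans (union_subset hB'N fun c hc =>
        hTN (hDT hc))) (hqc.trans hμν)
      refine ⟨s, hs1, hs2, fun x hx => ?_, fun x hx => ?_⟩
      · simp only [dif_pos hx]
        exact hs3 (Sum.inl ⟨x, hx⟩)
      · simp only [dif_pos hx]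
        exact hs3 (Sum.inr ⟨x, hx⟩)
  · intro x₀ hx₀ hx₀c
    obtain ⟨Ξ, _, _, b, x', hΞ, hb, hx', hc1, hc2⟩ := hlim x₀ hx₀ hx₀c
    obtain ⟨q₁, hq₁, hq₁c, h3⟩ := hlim_of_conv h₀ hK hunb hst hCm hs hCc hτ₁θ hl hα hΞ
      (hx₀c.trans (hμμ.trans hμν)) b (fun i => (i : C)) x' hb hc1 hc2
    refine ⟨fun x => if hx : x ∈ x₀ then x' ⟨x, hx⟩ else x, fun x hx => ?_, q₁, hq₁, hq₁c, ?_⟩
    · simp only [dif_pos hx]
      exact hx' _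
    · intro y₁ hy₁ hy₁c y₂ hy₂ hy₂c
      obtain ⟨s₁, hs₁, s₂, hs₂, h4, h5, h6⟩ := h3 y₁ hy₁ (hy₁c.trans hμν) y₂ hy₂
        (hy₂c.trans hμν)
      refine ⟨s₁, hs₁, s₂, hs₂, h4, h5, fun x hx => ?_⟩
      simp only [dif_pos hx]
      exact h6 ⟨x, hx⟩

end

end Vale.Agent.P307.R2.H732
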