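import Vale.Agent.P307.R2.H27.TrPt
import Vale.Agent.P307.R2.H27.Txk2
import Vale.Agent.P307.R2.H319.Hrefl
import Vale.Agent.P307.R2.H480.LeRow2

/-!
The rows of the shrinking, from the pointwise statements.
-/

set_option linter.unusedSectionVars false

universe u

open FirstOrder Cardinal Set

namespace Vale.Agent.P307.R2.H732

open Vale.Agent.P307 Vale.Agent.P307.H304 Vale.Agent.P307.R2.H287 Vale.Agent.P307.R2.H1
  Vale.Agent.P307.R2.H806 Vale.Agent.P307.R2.H971 Vale.Agent.P307.R2.H541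
  Vale.Agent.P307.R2.H541.PG Vale.Agent.P307.R2.H533 Vale.Agent.P307.R2.H650
  Vale.Agent.P307.R2.H578 Vale.Agent.P307.R2.H718 Vale.Agent.P307.R2.H319
  Vale.Agent.P307.R2.H480 Vale.Agent.P307.R2.H914 Vale.Agent.P307.R2.H27
  Language.Structure Language.Substructure
open Vale.Agent.P307.R2.H301 (EvM EvL MdK ShEK JRE JRb KnW Dens TrPE TrJE TrE RowsX JR2K evM_free evM_chn shEK_zero)

open Vale.Agent.P307.R2.H514 (tH)

open scoped Classical

section abs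

variable {C : Type u}

/-- Joint reflection over the union of the boundary and of an isolated set. -/
def JRR (n : ℕ) (Θ : Set C → Set C → Prop) (M : PG C) (τ : Cardinal.{u}) : Prop :=
  ∀ (ι : Type u) (A : Finset ι → Set C) (S : Finset ι) (c : ι), S.Nonempty → S.card ≤ n →
    Ext1 M A S c → Θ (A ∅) (A {c}) → ∀ R b : Set C, #R < M.χ → b ⊆ ibd A (insert c S) →
      #b < M.χ → M.Isol b (ibd A (insert c S)) R →
        JRp M τ A (insert c S).ssubsets (ibd A (insert c S) ∪ R)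

/-- Isolating sets of small size, for the boundaries of the extensions by one direction. -/
def TinyE (n : ℕ) (M : PG C) (τ : Cardinal.{u}) : Prop :=
  ∀ (ι : Type u) (A : Finset ι → Set C) (S : Finset ι) (c : ι), S.Nonempty → S.card ≤ n →
    Ext1 M A S c → TinyAt M τ (ibd A (insert c S))

variable {M : PG C} {τ : Cardinal.{u}}

theorem trR_of_rows {n : ℕ} {Θ : Set C → Set C → Prop} (hτ : ℵ₀ ≤ τ) (h1 : JRR n Θ M τ)
    (h2 : TinyE n M τ) (h3 : TrIsoAt M τ) (ι : Type u) (A : Finset ι → Set C) (S : Finset ι)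
    (c : ι) (hS0 : S.Nonempty) (hS : S.card ≤ n) (hE : Ext1 M A S c) (hΘ : Θ (A ∅) (A {c})) :
    TrR M τ (ibd A (insert c S)) :=
  trR_of_tiny hτ h3 (h2 ι A S c hS0 hS hE) fun R b hR hb hbc hi =>
    h1 ι A S c hS0 hS hE hΘ R b hR hb hbc hi

end abs

variable {L : Language.{u, u}} {K : AEC L} {ℓ : Cardinal.{u}} {κf α : Cardinal.{u} → Cardinal.{u}}

/-- **Joint reflection over isolated sets.** -/
theorem evL_jrr {k : ℕ} {Θ : ∀ C : Type u, PG C → Set C → Set C → Prop}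
    (hFr : EvM K ℓ κf α fun _ M => FreeM M) (hMd : EvM K ℓ κf α fun _ M => MdK k M)
    (hT : EvM K ℓ κf α fun _ M => TXK ℓ (k + 2) M)
    (hFU : EvM K ℓ κf α fun _ M => ∃ σ₀ < M.χ, FUn.{u, u} M σ₀ (k + 1))
    (hSh : EvL K ℓ κf α fun _ M τ => ShEK k M τ)
    (hLh : EvL K ℓ κf α fun C M τ => LhΘ (Θ C M) M τ) :
    EvL K ℓ κf α fun C M τ => JRR (k + 1) (Θ C M) M τ := by
  obtain ⟨r₁, h1⟩ := (hFr.and hFU).and (hMd.and hT)
  obtain ⟨r₂, h2⟩ := hSh.and hLh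
  refine ⟨max r₁ r₂, fun θ hθ h₀ hK hunb hst C _ hCm hs hCc => ?_⟩
  obtain ⟨⟨h3, σ₀, h9, h10⟩, h5, h6⟩ := h1 θ (hθ.mono (le_max_left _ _)) h₀ hK hunb hst C hCm hs hCc
  obtain ⟨τ₀, h7, h8⟩ := h2 θ (hθ.mono (le_max_right _ _)) h₀ hK hunb hst C hCm hs hCc
  refine ⟨max τ₀ (Order.succ σ₀), max_lt h7 ((Order.succ_le_of_lt (cantor σ₀)).trans_lt
    (h₀.pow σ₀ h9)), fun τ h11 hτθ hτ => ?_⟩
  have hσ₀ : σ₀ < τ := (Order.lt_succ σ₀).trans_le ((le_max_right _ _).trans h11)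
  obtain ⟨hSH, σ₁, hσ₁, hLE⟩ := h8 τ ((le_max_left _ _).trans h11) hτθ (hτ.mono (le_max_right _ _))
  intro ι A S c hS0 hS hE hΘ R b hR hb hbc hi
  have hM := pg_calc h₀ hK hunb hst hCm hs hCc
  have hc : (insert c S).card ≤ k + 2 := by
    rw [Finset.card_insert_of_notMem hE.notMem]
    omega
  have hcard : ∀ v ∈ (insert c S).ssubsets, v.card < (insert c S).card := fun v hv =>
    Finset.card_lt_card (Finset.mem_ssubsets.1 hv)
  refine pg_hrefl h₀ hK hunb hst hCm hs hCc hτ.base hτθ h3 (fun j _ hj => h5 ι j (by omega))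
    (fun w hw _ A' hA' hR' σ hσ ρ hρ => ?_) hσ₀ (fun w hw hw0 A' hA' hR' =>
      h10 ι w hw0 (by have := hcard w hw; omega) A' hA' hR') (fun j hj => ?_) hE.fam (hE.ref hM)
    (fun σ hσ ρ hρ => ?_) hσ₁ (hLE ι A S c hS0 hE hΘ) hR.le hb hbc hi
  · have h12 := h6 ι A' w w.ssubsets (by have := hcard w hw; omega) Finset.Subset.rfl hA' hR'
      σ hσ ρ hρ
    rwa [iun_ssubsets] at h12
  · refine sha_of_trN hτθ.le fun A' S' c' hS0' hSj hE' N hN => hSH ι A' S' c' hS0' ?_ hE' N hN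
    rw [Finset.card_insert_of_notMem hE'.notMem] at hSj
    omega
  · have h12 := h6 ι A (insert c S) (insert c S).ssubsets hc Finset.Subset.rfl hE.fam
      (hE.ref hM) σ hσ ρ hρ
    rwa [iun_ssubsets] at h12

/-- The rows of the shrinking from the rows of the isolating sets of small size. -/
theorem rowsX_of (hF : Frame K ℓ κf α)
    (hI : EvL K ℓ κf α fun _ M τ => TrIsoAt M τ)
    (hTiny : ∀ k, (EvM K ℓ κf α fun _ M => FreeM M) → (EvM K ℓ κf α fun _ M => MdK k M) →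
      (EvM K ℓ κf α fun _ M => TXK ℓ (k + 2) M) →
      (EvM K ℓ κf α fun _ M => ∃ σ₀ < M.χ, FUn.{u, u} M σ₀ (k + 1)) →
      (EvL K ℓ κf α fun _ M τ => JRE (k + 1) M τ) →
        EvL K ℓ κf α fun _ M τ => TinyE (k + 1) M τ) : RowsX K ℓ κf α := by
  have hFr := evM_free (K := K) (ℓ := ℓ) (κf := κf) (α := α) hF
  have hτ : EvL K ℓ κf α fun _ _ τ => ℵ₀ ≤ τ :=
    EvL.of_all (r := 0) fun _ _ _ _ hτ _ hK _ _ _ _ _ _ _ => aleph0_le_pt hτ.base hK
  have hMd0 : EvM K ℓ κf α fun _ M => MdK 0 M :=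
    ⟨0, fun θ _ => fun h₀ hK hunb hst C _ hCm hs hCc ι j hj =>
      tops_zero θ h₀ hK hunb hst C hCm hs hCc ι j hj⟩
  have hFU0 : EvM K ℓ κf α fun _ M => ∃ σ₀ < M.χ, FUn.{u, u} M σ₀ (0 + 1) :=
    ⟨0, fun θ _ h₀ hK hunb hst C _ hCm hs hCc => ⟨ℓ, h₀.pt.lt, fun_one _⟩⟩
  have hSh0 : EvL K ℓ κf α fun _ M τ => ShEK 0 M τ :=
    EvL.of_all (r := 0) fun _ _ _ _ _ _ _ _ _ _ _ _ _ _ => shEK_zero
  have hJ0 : EvL K ℓ κf α fun _ M τ => JRE (0 + 1) M τ := (H319.evL_jr2).imp fun _ _ _ h => h.jre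
  have hTy0 := hTiny 0 hFr hMd0 evM_txk2 hFU0 hJ0
  refine ⟨?_, fun hP => ?_, fun k hk hSh hJ => ?_⟩
  · refine (((evL_jrr hFr hMd0 evM_txk2 hFU0 hSh0 evL_lh_fin).and hTy0).and (hI.and hτ)).imp
      fun C M τ h ι A S c hS hE hΘ _ => ?_
    exact trR_of_rows h.2.2 h.1.1 h.1.2 h.2.1 ι A S c (Finset.card_pos.1 (by omega)) (by omega)
      hE hΘ
  · refine (((evL_jrr hFr hMd0 evM_txk2 hFU0 hSh0 (evL_lh_pj hF hP)).and hTy0).and (hI.and hτ)).imp
      fun C M τ h ι A S c hS hE hΘ _ => ?_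
    exact trR_of_rows h.2.2 h.1.1 h.1.2 h.2.1 ι A S c (Finset.card_pos.1 (by omega)) (by omega)
      hE hΘ
  · have hFU : EvM K ℓ κf α fun _ M => ∃ σ₀ < M.χ, FUn.{u, u} M σ₀ (k + 1) := by
      obtain ⟨r, h⟩ := (hk.fp.and hk.md).and hk.tx
      exact ⟨r, fun θ hθ h₀ hK hunb hst C _ hCm hs hCc => by
        obtain ⟨⟨h1, h2⟩, h3⟩ := h θ hθ h₀ hK hunb hst C hCm hs hCc
        exact exists_funW h₀ hK hunb hst hCm hs hCc h1 h2 h3⟩
    refine (((evL_jrr hk.free hk.md hk.tx hFU hSh (evL_lh hk.fp)).and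
      (hTiny k hk.free hk.md hk.tx hFU hJ)).and (hI.and hτ)).imp
      fun C M τ h ι A S c hS0 hS hE _ => ?_
    exact trR_of_rows h.2.2 h.1.1 h.1.2 h.2.1 ι A S c hS0 hS hE trivial

end Vale.Agent.P307.R2.H732
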