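import Vale.Agent.P307.R2.H732.TmL
import Vale.Agent.P307.R2.H533.GDI
import Vale.Agent.P307.R2.H533.EnlEx
import Vale.Agent.P307.R2.H650.Defs

/-!
Tameness of the types over arbitrary independent families of models: comparison with a standard
family. The blocks are enlarged one by one, together with coherent isomorphisms onto the faces of
a standard family, whose parameters are chosen along the way.
-/

set_option linter.unusedSectionVars false

universe u v w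

open Cardinal Set Function

namespace Vale.Agent.P307.R2.H732

open Vale.Agent.P307.R2.H541 Vale.Agent.P307.R2.H541.PG Vale.Agent.P307.R2.H533
  Vale.Agent.P307.R2.H650

open scoped Classical

variable {C : Type u} {ι : Type v}

/-- Standard families indexed by parameters `b`: the faces `St b v` and the lower hulls `Lo b v`. -/
structure StdFam (M : PG C) (F : Finset (Finset ι)) (O : Type w) where
  St : (Finset ι → O) → Finset ι → Set C
  Lo : (Finset ι → O) → Finset ι → Set C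
  congr : ∀ {b b' : Finset ι → O} {v : Finset ι}, (∀ r ⊆ v, b r = b' r) → St b v = St b' v
  fam : ∀ b, IFam M (St b) F
  ref : ∀ b, IRef M (St b) F
  tm : ∀ b, ∀ v ∈ F, M.Tm (ibd (St b) v)
  lo_sub : ∀ b, ∀ v ∈ F, ibd (St b) v ⊆ Lo b v
  lo_card : ∀ b, ∀ v ∈ F, #(Lo b v) ≤ M.χ
  base : ∀ b, ∀ P ∈ M.S, ∃ g ∈ M.G, g '' P = St b ∅
  univ : ∀ b, ∀ v ∈ F, v.Nonempty → ∀ D ∈ M.S, Lo b v ⊆ D → ∃ k ∈ M.G,
    (∀ x ∈ Lo b v, k x = x) ∧ ∃ o : O, k '' D ⊆ St (update b v o) v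

variable {M : PG C} {F F' : Finset (Finset ι)} {O : Type w} {𝕊 : StdFam M F O}
  {A B : Finset ι → Set C} {Q : Set C} {b : Finset ι → O} {f : C → C}

/-- The state of the construction when the faces of `F'` have been treated. -/
structure Good (A B : Finset ι → Set C) (𝕊 : StdFam M F O) (F' : Finset (Finset ι)) (Q : Set C)
    (b : Finset ι → O) (f : C → C) : Prop where
  fam : IFam M B F
  ref : IRef M B F
  iso : ∀ v ∈ F', ∃ g ∈ M.G, (∀ a ∈ B v, g a = f a) ∧ g '' B v = 𝕊.St b v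
  sub : ∀ v ∈ F, A v ⊆ B v
  key : Blk.KeyC M A B F Q

theorem keyC_self : Blk.KeyC M A A F Q :=
  fun _ _ _ _ _ _ => ⟨1, M.G.one_mem, fun _ _ => rfl, fun _ _ _ _ he => he⟩

theorem keyC_trans {P : Finset ι → Set C} {Q' : Set C} (h : Blk.KeyC M A B F Q)
    (h' : Blk.KeyC M B P F Q') (hQ : Q ⊆ Q') : Blk.KeyC M A P F Q := by
  intro E hE hEc D hD hDc
  obtain ⟨g, hg, h1, h2⟩ := h' E hE hEc D (hD.trans hQ) hDc
  obtain ⟨k, hk, h3, h4⟩ := h (g '' E) (by
    rintro _ ⟨e, he, rfl⟩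
    obtain ⟨v, hv, hev⟩ := hE he
    exact ⟨v, hv, h2 v hv e he hev⟩) (small_image g hEc) D hD hDc
  refine ⟨k * g, M.G.mul_mem hk hg, fun d hd => ?_, fun v hv e he hev => ?_⟩
  · rw [Equiv.Perm.mul_apply, h1 d hd, h3 d hd]
  · exact h4 v hv _ (mem_image_of_mem g he) (h2 v hv e he hev)

theorem iun_ssubsets (A : Finset ι → Set C) (v : Finset ι) : iun A v.ssubsets = ibd A v := by
  ext x
  constructor
  · rintro ⟨r, hr, hx⟩
    exact ⟨r, Finset.mem_ssubsets.1 hr, hx⟩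
  · rintro ⟨r, hr, hx⟩
    exact ⟨r, Finset.mem_ssubsets.2 hr, hx⟩

theorem down_ssubsets {v : Finset ι} (hv : v.Nonempty) : Down v.ssubsets := by
  refine ⟨Finset.mem_ssubsets.2 ?_, fun r hr q hq => ?_⟩
  · exact Finset.empty_ssubset.2 hv
  · exact Finset.mem_ssubsets.2 (lt_of_le_of_lt hq (Finset.mem_ssubsets.1 hr))

theorem card_iun_le (hA : IFam M A F) : #(iun A F) ≤ M.χ := by
  have h1 : iun A F = ⋃ v : F, A v := by
    ext x
    rw [mem_iUnion]
    constructor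
    · rintro ⟨v, hv, hx⟩
      exact ⟨⟨v, hv⟩, hx⟩
    · rintro ⟨v, hx⟩
      exact ⟨v, v.2, hx⟩
  have h2 : ∀ G : Finset (Finset ι), G ⊆ F → #(iun A G) ≤ M.χ := by
    intro G
    induction G using Finset.induction_on with
    | empty =>
      intro _
      have h3 : iun A (∅ : Finset (Finset ι)) = ∅ := by
        ext x
        constructor
        · rintro ⟨v, hv, -⟩
          exact absurd hv (Finset.notMem_empty v)
        · intro hx
          exact absurd hx (notMem_empty x)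
      rw [h3]
      simp
    | insert v G hv ih =>
      intro hG
      rw [iun_insert]
      refine (mk_union_le _ _).trans (add_le_of_le M.hχ ?_ (ih ((Finset.subset_insert v G).trans hG)))
      exact (M.S_card (hA.mem v (hG (Finset.mem_insert_self v G)))).le
  exact h2 F (Finset.Subset.refl F)

/-- The first chart. -/
theorem exists_good_init (hF : Down F) (hA : IFam M A F) (hR : IRef M A F) (𝕊 : StdFam M F O)
    (b : Finset ι → O) : ∃ f : C → C, Good A A 𝕊 {∅} Q b f := by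
  obtain ⟨g, hg, h1⟩ := 𝕊.base b (A ∅) (hA.mem ∅ hF.1)
  refine ⟨g, hA, hR, fun v hv => ?_, fun v _ => Subset.rfl, keyC_self⟩
  rw [Finset.mem_singleton] at hv
  subst hv
  exact ⟨g, hg, fun _ _ => rfl, h1⟩

/-- **The step.** -/
theorem Good.step (hM : M.Calc) (hB : M.Big) (hRl : M.Real) (hFr : FreeM M)
    (hG : ∀ v ∈ F, 2 ≤ v.card → GDI M ι v.card)
    (hMd : ∀ r ∈ F, r.Nonempty → ∀ v ∈ F, r ⊂ v → Md M ι (v \ r).card) (hQ : #Q ≤ M.χ)
    (hF' : Down F') (hF'F : F' ⊆ F) {r : Finset ι} (hrF : r ∈ F) (hr : r ∉ F')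
    (hsub : ∀ q, q ⊂ r → q ∈ F') (h : Good A B 𝕊 F' Q b f) :
    ∃ (B' : Finset ι → Set C) (b' : Finset ι → O) (f' : C → C),
      Good A B' 𝕊 (insert r F') Q b' f' := by
  have hr0 : r.Nonempty := by
    rw [Finset.nonempty_iff_ne_empty]
    rintro rfl
    exact hr hF'.1
  have hDn := h.fam.down
  have hss : r.ssubsets ⊆ F := fun q hq => hF'F (hsub q (Finset.mem_ssubsets.1 hq))
  have hS := 𝕊.fam b
  -- the union of the charts below `r` extends
  have hLE : M.LE f (ibd B r) := by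
    rw [← iun_ssubsets]
    refine le_arb (A' := 𝕊.St b) hM (h.fam.sub (down_ssubsets hr0) hss) (h.ref.mono hss)
      (hS.sub (down_ssubsets hr0) hss) ((𝕊.ref b).mono hss) (fun v hv h2 => hG v (hss hv) h2) f
      fun v hv => h.iso v (hsub v (Finset.mem_ssubsets.1 hv))
  have himg : f '' ibd B r = ibd (𝕊.St b) r := by
    ext y
    constructor
    · rintro ⟨x, ⟨q, hq, hx⟩, rfl⟩
      obtain ⟨g, hg, h1, h2⟩ := h.iso q (hsub q hq)
      refine ⟨q, hq, ?_⟩
      rw [← h2, ← h1 x hx]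
      exact mem_image_of_mem g hx
    · rintro ⟨q, hq, hy⟩
      obtain ⟨g, hg, h1, h2⟩ := h.iso q (hsub q hq)
      rw [← h2] at hy
      obtain ⟨x, hx, rfl⟩ := hy
      exact ⟨x, ⟨q, hq, hx⟩, (h1 x hx).symm⟩
  have hbdD : ibd B r ⊆ B r := by
    rintro x ⟨q, hq, hx⟩
    exact h.fam.mono r hrF q hq.1 hx
  obtain ⟨g, hg, hgf⟩ := hLE.exists_aut hRl (h.fam.mem r hrF) hbdD (by
    rw [himg]
    exact 𝕊.tm b r hrF)
  -- universality
  obtain ⟨K, hK, hKs⟩ := hB.ls (g '' B r ∪ 𝕊.Lo b r) ((mk_union_le _ _).trans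
    (add_le_of_le M.hχ (mk_image_le.trans (M.S_card (h.fam.mem r hrF)).le) (𝕊.lo_card b r hrF)))
  obtain ⟨k, hk, hk1, o, hk2⟩ := 𝕊.univ b r hrF hr0 K hK (subset_union_right.trans hKs)
  let b' : Finset ι → O := update b r o
  have hb' : ∀ v, v ∈ F' → 𝕊.St b' v = 𝕊.St b v := by
    intro v hv
    refine 𝕊.congr fun q hq => ?_
    have hqr : q ≠ r := fun h1 => hr (h1 ▸ hF'.2 v hv q hq)
    exact update_of_ne hqr o b
  have hh : k * g ∈ M.G := M.G.mul_mem hk hg
  have hh' : (k * g)⁻¹ ∈ M.G := M.G.inv_mem hh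
  have hSr : 𝕊.St b' r ∈ M.S := (𝕊.fam b').mem r hrF
  have hDR : B r ⊆ ((k * g)⁻¹ : Equiv.Perm C) '' 𝕊.St b' r := by
    intro x hx
    refine ⟨(k * g) x, hk2 ⟨g x, hKs (Or.inl (mem_image_of_mem g hx)), rfl⟩, ?_⟩
    rw [inv_ap]
  -- a big set
  obtain ⟨Q', hQ', hQ's⟩ := hB.ls (iun B F ∪ Q) ((mk_union_le _ _).trans
    (add_le_of_le M.hχ (card_iun_le h.fam) hQ))
  obtain ⟨u, hu, hu1, hu2⟩ := hFr (B r) (h.fam.mem r hrF) _ (M.S_inv hh' hSr) hDR Q'
    (M.S_card hQ').le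
  obtain ⟨P, hPr, hP⟩ := exists_blk h.fam h.ref hrF hr0 (subset_union_left.trans hQ's)
    (M.S_inv hu (M.S_inv hh' hSr)) (by
      intro x hx
      exact ⟨x, hDR hx, hu1 x hx⟩) hu2 (hMd r hrF hr0)
  -- the new chart
  let φ : Equiv.Perm C := k * g * u⁻¹
  have hφ : φ ∈ M.G := M.G.mul_mem hh (M.G.inv_mem hu)
  have hφP : φ '' P r = 𝕊.St b' r := by
    rw [hPr, image_image, image_image]
    have h1 : ∀ x, φ (u ((k * g)⁻¹ x)) = x := by
      intro x
      change (k * g) (u⁻¹ (u ((k * g)⁻¹ x))) = x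
      rw [inv_ap, ap_inv]
    simp only [h1, image_id']
  have hφD : ∀ x ∈ B r, φ x = k (g x) := by
    intro x hx
    change (k * g) (u⁻¹ x) = k (g x)
    rw [fix_inv (hu1 x hx)]
    rfl
  have hφf : ∀ q, q ⊂ r → ∀ x ∈ B q, φ x = f x := by
    intro q hq x hx
    have h1 : x ∈ ibd B r := ⟨q, hq, hx⟩
    rw [hφD x (hbdD h1), hgf x h1]
    refine hk1 _ (𝕊.lo_sub b r hrF ?_)
    rw [← himg]
    exact mem_image_of_mem f h1
  have hsame : ∀ v ∈ F', P v = B v := fun v hv =>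
    hP.same v (hF'F hv) fun h1 => hr (hF'.2 v hv r h1)
  let f' : C → C := fun x => if x ∈ P r then φ x else f x
  have hf'r : ∀ x ∈ P r, f' x = φ x := fun x hx => if_pos hx
  have hRP := hP.refP hM
  have hf'v : ∀ v ∈ F', ∀ x ∈ B v, f' x = f x := by
    intro v hv x hx
    by_cases h1 : x ∈ P r
    · rw [hf'r x h1]
      have h2 : x ∈ P (v ∩ r) := by
        rw [← hRP.inter hDn hP.famP (hF'F hv) hrF]
        refine ⟨?_, h1⟩
        rw [hsame v hv]
        exact hx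
      have h3 : v ∩ r ⊂ r := by
        refine lt_of_le_of_ne Finset.inter_subset_right fun h4 => hr (hF'.2 v hv r ?_)
        rw [← h4]
        exact Finset.inter_subset_left
      rw [hsame _ (hsub _ h3)] at h2
      exact hφf _ h3 x h2
    · exact if_neg h1
  refine ⟨P, b', f', hP.famP, hRP, fun v hv => ?_, fun v hv => (h.sub v hv).trans (hP.le hv),
    keyC_trans h.key (hP.refC hM) (subset_union_right.trans hQ's)⟩
  rcases Finset.mem_insert.1 hv with rfl | hv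
  · exact ⟨φ, hφ, fun a ha => (hf'r a ha).symm, hφP⟩
  · obtain ⟨g', hg', h1, h2⟩ := h.iso v hv
    refine ⟨g', hg', fun a ha => ?_, ?_⟩
    · rw [hsame v hv] at ha
      rw [h1 a ha, hf'v v hv a ha]
    · rw [hsame v hv, h2, hb' v hv]

/-- All the faces. -/
theorem exists_good (hM : M.Calc) (hB : M.Big) (hRl : M.Real) (hFr : FreeM M)
    (hF : Down F) (hA : IFam M A F) (hR : IRef M A F)
    (hG : ∀ v ∈ F, 2 ≤ v.card → GDI M ι v.card)
    (hMd : ∀ r ∈ F, r.Nonempty → ∀ v ∈ F, r ⊂ v → Md M ι (v \ r).card) (hQ : #Q ≤ M.χ)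
    (𝕊 : StdFam M F O) (b₀ : Finset ι → O) :
    ∃ (B : Finset ι → Set C) (b : Finset ι → O) (f : C → C), Good A B 𝕊 F Q b f := by
  have key : ∀ F', Down F' → F' ⊆ F → ∃ (B : Finset ι → Set C) (b : Finset ι → O) (f : C → C),
      Good A B 𝕊 F' Q b f := by
    refine down_induction (p := fun F' => F' ⊆ F → ∃ (B : Finset ι → Set C)
      (b : Finset ι → O) (f : C → C), Good A B 𝕊 F' Q b f) ?_ ?_
    · intro _
      obtain ⟨f, hf⟩ := exists_good_init hF hA hR 𝕊 b₀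
      exact ⟨A, b₀, f, hf⟩
    · intro F' r hF' hr hsub ih hF'F
      have h1 : F' ⊆ F := (Finset.subset_insert r F').trans hF'F
      obtain ⟨B, b, f, h⟩ := ih h1
      exact h.step hM hB hRl hFr hG hMd hQ hF' h1 (hF'F (Finset.mem_insert_self r F')) hr hsub
  exact key F hF (Finset.Subset.refl F)

/-- **Tameness over arbitrary independent families**, from tameness over standard families. -/
theorem tmL_of_std (hM : M.Calc) (hB : M.Big) (hRl : M.Real) (hFr : FreeM M)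
    (hF : Down F) (hA : IFam M A F) (hR : IRef M A F)
    (hG : ∀ v ∈ F, 2 ≤ v.card → GDI M ι v.card)
    (hMd : ∀ r ∈ F, r.Nonempty → ∀ v ∈ F, r ⊂ v → Md M ι (v \ r).card)
    {σ H ρ : Cardinal.{u}} (hσ : σ < M.χ) (hH : H < M.χ) (hρ : ρ < M.χ)
    (𝕊 : StdFam M F O) (b₀ : Finset ι → O) (hT : ∀ b, M.TmL σ H ρ (iun (𝕊.St b) F)) :
    M.TmL σ H ρ (iun A F) := by
  obtain ⟨B₀, hB₀, hmap⟩ := hRl.tmL_of_map hσ hH hρ
  intro E hE g hg
  have hEc : #E < M.χ := hE.trans_lt hσ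
  have hEg : #(E ∪ g '' E : Set C) < M.χ := small_union hEc (small_image g hEc)
  obtain ⟨B, b, f, h⟩ := exists_good (Q := E ∪ g '' E) hM hB hRl hFr hF hA hR hG hMd hEg.le 𝕊 b₀
  have hLE : M.LE f (iun B F) :=
    le_arb (A' := 𝕊.St b) hM h.fam h.ref (𝕊.fam b) (𝕊.ref b) hG f h.iso
  have himg : f '' iun B F = iun (𝕊.St b) F := by
    ext y
    constructor
    · rintro ⟨x, ⟨q, hq, hx⟩, rfl⟩
      obtain ⟨g', hg', h1, h2⟩ := h.iso q hq
      refine ⟨q, hq, ?_⟩
      rw [← h2, ← h1 x hx]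
      exact mem_image_of_mem g' hx
    · rintro ⟨q, hq, hy⟩
      obtain ⟨g', hg', h1, h2⟩ := h.iso q hq
      rw [← h2] at hy
      obtain ⟨x, hx, rfl⟩ := hy
      exact ⟨x, ⟨q, hq, hx⟩, (h1 x hx).symm⟩
  have h1 : M.TmL σ H ρ (iun B F) := by
    refine hmap _ f (card_iun_le h.fam) (fun D hD hDc => hLE D hD (hDc.trans_lt hB₀)) ?_
    rw [himg]
    exact hT b
  have hsubB : ∀ v ∈ F, A v ⊆ B v := h.sub
  refine (h1.tmE hE hg).of_refl ?_ fun D hD hDc => ?_
  · rintro x ⟨v, hv, hx⟩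
    exact ⟨v, hv, hsubB v hv hx⟩
  · obtain ⟨k, hk, h2, h3⟩ := h.key D hD (hDc.trans_lt hH) (E ∪ g '' E) Subset.rfl hEg
    refine ⟨k, hk, fun e he => h2 e (Or.inl he), fun e he =>
      h2 _ (Or.inr (mem_image_of_mem g he)), fun a ha => ?_⟩
    obtain ⟨v, hv, hav⟩ := hD ha
    exact ⟨v, hv, h3 v hv a ha hav⟩

end Vale.Agent.P307.R2.H732
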